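import Mathlib

/-!
A maximal inscribed ellipsoid of a finite dimensional norm and its contact decomposition of
the identity, together with the determinant bound for the frame maps they produce.
-/

open Set Metric Module
open scoped RealInnerProductSpace

namespace Vale.Agent.P084

variable {n : ℕ}

/-- Euclidean coordinates on a normed space in which the unit ball has the standard ball as its
inscribed ellipsoid, with contact vectors decomposing the identity. -/
structure ContactData (n : ℕ) (X : Type*) [NormedAddCommGroup X] [NormedSpace ℝ X] where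
  coord : EuclideanSpace ℝ (Fin n) ≃L[ℝ] X
  norm_le : ∀ v, ‖coord v‖ ≤ ‖v‖
  m : ℕ
  weight : Fin m → ℝ
  vec : Fin m → EuclideanSpace ℝ (Fin n)
  weight_nonneg : ∀ i, 0 ≤ weight i
  weight_sum : ∑ i, weight i = (n : ℝ)
  vec_norm : ∀ i, ‖vec i‖ = 1
  vec_le : ∀ i v, |⟪vec i, v⟫| ≤ ‖coord v‖
  decomp : ∀ v, ∑ i, (weight i * ⟪vec i, v⟫) • vec i = v

theorem isCompact_convexHull {W : Type*} [NormedAddCommGroup W] [NormedSpace ℝ W]
    [FiniteDimensional ℝ W] {K : Set W} (hK : IsCompact K) : IsCompact (convexHull ℝ K) := by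
  classical
  rcases K.eq_empty_or_nonempty with rfl | ⟨k0, hk0⟩
  · simp
  set d := finrank ℝ W + 1
  have himg : convexHull ℝ K =
      (fun q : (Fin d → ℝ) × (Fin d → W) => ∑ i, q.1 i • q.2 i) ''
        (stdSimplex ℝ (Fin d) ×ˢ Set.pi univ fun _ => K) := by
    apply Subset.antisymm
    · intro x hx
      obtain ⟨ι, hι, z, w, hzK, hind, hw0, hw1, rfl⟩ := eq_pos_convex_span_of_mem_convexHull hx
      have hcard : Fintype.card ι ≤ Fintype.card (Fin d) := by
        rw [Fintype.card_fin]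
        refine hind.card_le_finrank_succ.trans ?_
        exact Nat.add_le_add_right (Submodule.finrank_le _) 1
      obtain ⟨e⟩ := Function.Embedding.nonempty_of_card_le hcard
      refine ⟨(Function.extend e w 0, Function.extend e z fun _ => k0), ⟨⟨?_, ?_⟩, ?_⟩, ?_⟩
      · intro i
        dsimp only
        by_cases h : ∃ a, e a = i
        · obtain ⟨a, rfl⟩ := h
          rw [e.injective.extend_apply]
          exact (hw0 a).le
        · rw [Function.extend_apply' _ _ _ h]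
          simp
      · rw [← hw1]
        refine (Fintype.sum_of_injective e e.injective _ _ (fun i hi => ?_) fun a => ?_).symm
        · dsimp only
          rw [Function.extend_apply' _ _ _ (by simpa using hi)]; rfl
        · dsimp only
          rw [e.injective.extend_apply]
      · intro i _
        by_cases h : ∃ a, e a = i
        · obtain ⟨a, rfl⟩ := h
          dsimp only
          rw [e.injective.extend_apply]
          exact hzK ⟨a, rfl⟩
        · dsimp only
          rw [Function.extend_apply' _ _ _ h]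
          exact hk0
      · refine (Fintype.sum_of_injective e e.injective _ _ (fun i hi => ?_) fun a => ?_).symm
        · dsimp only
          rw [Function.extend_apply' w (0 : Fin d → ℝ) i (by simpa using hi)]
          simp
        · dsimp only
          rw [e.injective.extend_apply, e.injective.extend_apply]
    · rintro _ ⟨q, ⟨hw, hz⟩, rfl⟩
      exact (convex_convexHull ℝ K).sum_mem (fun i _ => hw.1 i) hw.2
        fun i _ => subset_convexHull ℝ K (hz i trivial)
  rw [himg]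
  refine IsCompact.image ((isCompact_stdSimplex ℝ (Fin d)).prod (isCompact_univ_pi fun _ => hK)) ?_
  fun_prop

/-- If `v ↦ ∑ wᵢ ⟪θᵢ, v⟫ ψᵢ` comes from a tight frame `ψ` and vectors `θ` of norm at most one,
its determinant has absolute value at most one, and in case of equality it preserves norms. -/
theorem frame_det {m : ℕ} (w : Fin m → ℝ) (ψ θ : Fin m → EuclideanSpace ℝ (Fin n))
    (hw : ∀ i, 0 ≤ w i) (hsum : ∑ i, w i = (n : ℝ))
    (hdec : ∀ v, ∑ i, (w i * ⟪ψ i, v⟫) • ψ i = v)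
    (hθ : ∀ i, ‖θ i‖ ≤ 1)
    (T : EuclideanSpace ℝ (Fin n) →L[ℝ] EuclideanSpace ℝ (Fin n))
    (hT : ∀ v, T v = ∑ i, (w i * ⟪θ i, v⟫) • ψ i) :
    |T.det| ≤ 1 ∧ (|T.det| = 1 → ∀ v, ‖T v‖ = ‖v‖) := by
  have hbound : ∀ v, ‖T v‖ ^ 2 ≤ ∑ i, w i * ⟪θ i, v⟫ ^ 2 := by
    intro v
    have e1 : ‖T v‖ ^ 2 = ∑ i, w i * ⟪θ i, v⟫ * ⟪ψ i, T v⟫ := by
      have h : ‖T v‖ ^ 2 = ⟪∑ i, (w i * ⟪θ i, v⟫) • ψ i, T v⟫ := by
        rw [← real_inner_self_eq_norm_sq, ← hT v]
      rw [h]
      simp [sum_inner, real_inner_smul_left]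
    have e2 : ‖T v‖ ^ 2 = ∑ i, w i * ⟪ψ i, T v⟫ * ⟪ψ i, T v⟫ := by
      have h : ‖T v‖ ^ 2 = ⟪∑ i, (w i * ⟪ψ i, T v⟫) • ψ i, T v⟫ := by
        rw [← real_inner_self_eq_norm_sq, hdec (T v)]
      rw [h]
      simp [sum_inner, real_inner_smul_left]
    have e3 : 2 * ‖T v‖ ^ 2 ≤ ∑ i, w i * ⟪θ i, v⟫ ^ 2 + ‖T v‖ ^ 2 := by
      nth_rewrite 1 [e1]
      nth_rewrite 1 [e2]
      rw [Finset.mul_sum, ← Finset.sum_add_distrib]
      refine Finset.sum_le_sum fun i _ => ?_
      nlinarith [mul_nonneg (hw i) (sq_nonneg (⟪θ i, v⟫ - ⟪ψ i, T v⟫))]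
    linarith
  set S : EuclideanSpace ℝ (Fin n) →ₗ[ℝ] EuclideanSpace ℝ (Fin n) :=
    LinearMap.adjoint T.toLinearMap ∘ₗ T.toLinearMap with hSdef
  have hS : S.IsSymmetric := LinearMap.isSymmetric_adjoint_mul_self T.toLinearMap
  have hn : finrank ℝ (EuclideanSpace ℝ (Fin n)) = n := by simp
  set b := hS.eigenvectorBasis hn with hb
  set l := hS.eigenvalues hn with hl
  have hlam : ∀ j, l j = ‖T (b j)‖ ^ 2 := by
    intro j
    have h1 : ⟪S (b j), b j⟫ = l j := by
      rw [hb, hS.apply_eigenvectorBasis hn j]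
      simp [real_inner_smul_left, hl]
    rw [← h1, hSdef, LinearMap.comp_apply, LinearMap.adjoint_inner_left,
      real_inner_self_eq_norm_sq]
    rfl
  have hlsum : ∑ j, l j ≤ n := by
    calc ∑ j, l j = ∑ j, ‖T (b j)‖ ^ 2 := by simp [hlam]
      _ ≤ ∑ j, ∑ i, w i * ⟪θ i, b j⟫ ^ 2 := Finset.sum_le_sum fun j _ => hbound _
      _ = ∑ i, w i * ∑ j, ⟪θ i, b j⟫ ^ 2 := by
          rw [Finset.sum_comm]; simp [Finset.mul_sum]
      _ = ∑ i, w i * ‖θ i‖ ^ 2 := by
          refine Finset.sum_congr rfl fun i _ => ?_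
          congr 1
          rw [← real_inner_self_eq_norm_sq (θ i), ← b.sum_inner_mul_inner (θ i) (θ i)]
          refine Finset.sum_congr rfl fun j _ => ?_
          rw [real_inner_comm (b j) (θ i)]
          ring
      _ ≤ ∑ i, w i := by
          refine Finset.sum_le_sum fun i _ => ?_
          exact mul_le_of_le_one_right (hw i) (pow_le_one₀ (norm_nonneg _) (hθ i))
      _ = n := hsum
  have hdet : T.det ^ 2 = ∏ j, l j := by
    have h1 : LinearMap.det S = LinearMap.det T.toLinearMap * LinearMap.det T.toLinearMap := by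
      rw [hSdef, LinearMap.det_comp]
      congr 1
      let b := EuclideanSpace.basisFun (Fin n) ℝ
      rw [← LinearMap.det_toMatrix b.toBasis, LinearMap.toMatrix_adjoint b b,
        Matrix.det_conjTranspose, LinearMap.det_toMatrix, star_trivial]
    have h2 := hS.det_eq_prod_eigenvalues hn
    rw [h1] at h2
    simpa [ContinuousLinearMap.det, hl, sq] using h2
  have hl0 : ∀ j, 0 ≤ l j := fun j => hlam j ▸ sq_nonneg _
  have hle : ∀ j, l j ≤ Real.exp (l j - 1) := fun j => by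
    have := Real.add_one_le_exp (l j - 1); linarith
  have hsum1 : ∑ j, (l j - 1) ≤ 0 := by
    rw [Finset.sum_sub_distrib]
    simp
    linarith
  have hexp : ∏ j, l j ≤ 1 := by
    calc ∏ j, l j ≤ ∏ j, Real.exp (l j - 1) := Finset.prod_le_prod (fun j _ => hl0 j) fun j _ => hle j
      _ = Real.exp (∑ j, (l j - 1)) := (Real.exp_sum _ _).symm
      _ ≤ 1 := Real.exp_le_one_iff.2 hsum1
  refine ⟨(sq_le_one_iff_abs_le_one _).1 (hdet ▸ hexp), fun heq v => ?_⟩
  have hprod : ∏ j, l j = 1 := by rw [← hdet, ← sq_abs, heq, one_pow]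
  have hone : ∀ j, l j = 1 := by
    intro j
    by_contra hne
    have hpos : ∀ k, 0 < l k := by
      intro k
      refine lt_of_le_of_ne (hl0 k) fun h => ?_
      rw [Finset.prod_eq_zero (Finset.mem_univ k) h.symm] at hprod
      exact zero_ne_one hprod
    have hlt : ∏ k, l k < ∏ k, Real.exp (l k - 1) :=
      Finset.prod_lt_prod (fun k _ => hpos k) (fun k _ => hle k)
        ⟨j, Finset.mem_univ j, by
          have := Real.add_one_lt_exp (sub_ne_zero.2 hne); linarith⟩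
    rw [← Real.exp_sum, hprod] at hlt
    linarith [Real.exp_le_one_iff.2 hsum1]
  have hSid : S = LinearMap.id := by
    apply b.toBasis.ext
    intro j
    rw [OrthonormalBasis.coe_toBasis, hb, hS.apply_eigenvectorBasis hn j, ← hl, hone j]
    simp
  have h2 : ‖T v‖ ^ 2 = ‖v‖ ^ 2 := by
    rw [← real_inner_self_eq_norm_sq, ← real_inner_self_eq_norm_sq]
    have : ⟪S v, v⟫ = ⟪T v, T v⟫ := by
      rw [hSdef, LinearMap.comp_apply, LinearMap.adjoint_inner_left]; rfl
    rw [← this, hSid]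
    rfl
  exact (sq_eq_sq₀ (norm_nonneg _) (norm_nonneg _)).1 h2

theorem exists_maxDet_coord (X : Type*) [NormedAddCommGroup X] [NormedSpace ℝ X]
    [FiniteDimensional ℝ X] (hX : finrank ℝ X = n) :
    ∃ A0 : EuclideanSpace ℝ (Fin n) ≃L[ℝ] X, (∀ v, ‖A0 v‖ ≤ ‖v‖) ∧
      ∀ T : EuclideanSpace ℝ (Fin n) →L[ℝ] EuclideanSpace ℝ (Fin n),
        (∀ v, ‖A0 (T v)‖ ≤ ‖v‖) → |T.det| ≤ 1 := by
  obtain ⟨e⟩ : Nonempty (EuclideanSpace ℝ (Fin n) ≃L[ℝ] X) :=
    FiniteDimensional.nonempty_continuousLinearEquiv_of_finrank_eq (by simp [hX])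
  set F : (EuclideanSpace ℝ (Fin n) →L[ℝ] X) → ℝ :=
    fun A => |((e.symm : X →L[ℝ] EuclideanSpace ℝ (Fin n)).comp A).det| with hF
  have hFc : Continuous F :=
    (ContinuousLinearMap.continuous_det.comp (by fun_prop)).abs
  obtain ⟨A, hA1, hAmax⟩ := (isCompact_closedBall
    (0 : EuclideanSpace ℝ (Fin n) →L[ℝ] X) 1).exists_isMaxOn ⟨0, by simp⟩ hFc.continuousOn
  rw [mem_closedBall_zero_iff] at hA1
  have hdet : ((e.symm : X →L[ℝ] EuclideanSpace ℝ (Fin n)).comp A).det ≠ 0 := by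
    intro h0
    set c : ℝ := (‖(e : EuclideanSpace ℝ (Fin n) →L[ℝ] X)‖ + 1)⁻¹ with hc
    have hc0 : 0 < c := by positivity
    have hmem : c • (e : EuclideanSpace ℝ (Fin n) →L[ℝ] X) ∈
        closedBall (0 : EuclideanSpace ℝ (Fin n) →L[ℝ] X) 1 := by
      rw [mem_closedBall_zero_iff, norm_smul, Real.norm_of_nonneg hc0.le, hc,
        inv_mul_le_one₀ (by positivity)]
      linarith
    have := hAmax hmem
    have e1 : ((e.symm : X →L[ℝ] EuclideanSpace ℝ (Fin n)).comp
        (c • (e : EuclideanSpace ℝ (Fin n) →L[ℝ] X))) = c • ContinuousLinearMap.id ℝ _ := by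
      ext v; simp
    simp only [hF, e1, h0, Set.mem_ofPred_eq, abs_zero] at this
    have e2 : (c • ContinuousLinearMap.id ℝ (EuclideanSpace ℝ (Fin n))).det = c ^ n := by
      simp [ContinuousLinearMap.det, LinearMap.det_smul]
    rw [e2] at this
    exact absurd this (not_le.2 (abs_pos.2 (pow_ne_zero _ hc0.ne')))
  let L := (LinearMap.equivOfDetNeZero _ hdet).toContinuousLinearEquiv
  have hA0A : ∀ v, L.trans e v = A v := by
    intro v
    show e (((e.symm : X →L[ℝ] EuclideanSpace ℝ (Fin n)).comp A) v) = A v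
    simp
  refine ⟨L.trans e, ?_, ?_⟩
  · intro v
    rw [hA0A]
    exact (A.le_opNorm v).trans (mul_le_of_le_one_left (norm_nonneg _) hA1)
  · intro T hT
    have hmem : A.comp T ∈ closedBall (0 : EuclideanSpace ℝ (Fin n) →L[ℝ] X) 1 := by
      rw [mem_closedBall_zero_iff]
      refine ContinuousLinearMap.opNorm_le_bound _ zero_le_one fun v => ?_
      simpa [hA0A] using hT v
    have := hAmax hmem
    simp only [hF, Set.mem_ofPred_eq, ← ContinuousLinearMap.comp_assoc] at this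
    simp only [ContinuousLinearMap.det, ContinuousLinearMap.toLinearMap_comp, LinearMap.det_comp,
      abs_mul] at this hdet ⊢
    exact le_of_mul_le_mul_left (this.trans_eq (mul_one _).symm) (abs_pos.2 hdet)

/-- The bilinear form of a functional on operators, evaluated on rank one operators. -/
theorem exists_operator_of_functional
    (φ : (EuclideanSpace ℝ (Fin n) →L[ℝ] EuclideanSpace ℝ (Fin n)) →L[ℝ] ℝ) :
    ∃ H : EuclideanSpace ℝ (Fin n) →L[ℝ] EuclideanSpace ℝ (Fin n),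
      ∀ a v, ⟪a, H v⟫ = φ (InnerProductSpace.rankOne ℝ a v) := by
  let b := EuclideanSpace.basisFun (Fin n) ℝ
  refine ⟨LinearMap.toContinuousLinearMap
    { toFun := fun v => ∑ j, φ (InnerProductSpace.rankOne ℝ (b j) v) • b j
      map_add' := fun x y => by simp [add_smul, Finset.sum_add_distrib]
      map_smul' := fun c x => by simp [smul_smul, Finset.smul_sum] }, fun a v => ?_⟩
  have ha : InnerProductSpace.rankOne ℝ a v =
      ∑ j, ⟪b j, a⟫ • InnerProductSpace.rankOne ℝ (b j) v := by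
    ext1 x
    simp only [sum_apply, smul_apply, InnerProductSpace.rankOne_apply, smul_comm _ ⟪v, x⟫,
      ← Finset.smul_sum]
    rw [b.sum_repr']
  rw [LinearMap.coe_toContinuousLinearMap', ha]
  simp only [LinearMap.coe_mk, AddHom.coe_mk, inner_sum, real_inner_smul_right, map_sum, map_smul,
    smul_eq_mul]
  exact Finset.sum_congr rfl fun j _ => by rw [real_inner_comm (b j) a]; ring

theorem perturb_norm_le {X : Type*} [NormedAddCommGroup X] [NormedSpace ℝ X]
    (A0 : EuclideanSpace ℝ (Fin n) ≃L[ℝ] X) (hnorm : ∀ v, ‖A0 v‖ ≤ ‖v‖)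
    (H : EuclideanSpace ℝ (Fin n) →L[ℝ] EuclideanSpace ℝ (Fin n))
    (hneg : ∀ ψ, ‖ψ‖ = 1 → (∀ v, |⟪ψ, v⟫| ≤ ‖A0 v‖) → ⟪ψ, H ψ⟫ < 0) :
    ∀ᶠ ε in nhdsWithin (0 : ℝ) (Set.Ioi 0),
      ∀ v, ‖A0 ((1 + ε • H : EuclideanSpace ℝ (Fin n) →L[ℝ] _) v)‖ ≤ ‖v‖ := by
  set Θ : Set (EuclideanSpace ℝ (Fin n)) := {θ | ∀ v, |⟪θ, v⟫| ≤ ‖A0 v‖} with hΘ
  have hΘclosed : IsClosed Θ := by
    simp only [hΘ, Set.ofPred_forall]
    exact isClosed_iInter fun v => isClosed_le (by fun_prop) continuous_const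
  have hΘnorm : ∀ θ ∈ Θ, ‖θ‖ ≤ 1 := by
    intro θ hθ
    have h := (hθ θ).trans (hnorm θ)
    rw [real_inner_self_eq_norm_sq, abs_of_nonneg (sq_nonneg _)] at h
    nlinarith [norm_nonneg θ]
  have hΘc : IsCompact Θ :=
    isCompact_of_isClosed_isBounded hΘclosed
      (isBounded_iff_forall_norm_le.2 ⟨1, hΘnorm⟩)
  obtain ⟨η, hη0, hη⟩ : ∃ η > 0, ∀ θ ∈ Θ, η ≤ max (1 - ‖θ‖ ^ 2) (-⟪θ, H θ⟫) := by
    obtain ⟨θ0, hθ0, hθmin⟩ := hΘc.exists_isMinOn (f := fun θ => max (1 - ‖θ‖ ^ 2) (-⟪θ, H θ⟫))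
      ⟨0, fun v => by simp⟩ (by fun_prop)
    refine ⟨_, ?_, fun θ hθ => hθmin hθ⟩
    rcases (hΘnorm θ0 hθ0).lt_or_eq with h | h
    · exact lt_max_of_lt_left (by nlinarith [norm_nonneg θ0])
    · exact lt_max_of_lt_right (neg_pos.2 (hneg θ0 h hθ0))
  set C : ℝ := ‖ContinuousLinearMap.adjoint H‖ + 1 with hC
  have hC1 : 1 ≤ C := le_add_of_nonneg_left (norm_nonneg _)
  have h2 : ∀ᶠ ε in nhdsWithin (0 : ℝ) (Set.Ioi 0), ε < min 1 (η / (4 * C ^ 2)) :=
    nhdsWithin_le_nhds (eventually_lt_nhds (lt_min one_pos (by positivity)))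
  filter_upwards [h2, eventually_mem_nhdsWithin] with ε he2 (hε0 : 0 < ε)
  have hb1 : ε * (4 * C ^ 2) < η :=
    (lt_div_iff₀ (by positivity)).1 (he2.trans_le (min_le_right _ _))
  have hb2 : ε ≤ 1 := (he2.trans_le (min_le_left _ _)).le
  intro v
  rcases eq_or_ne (A0 ((1 + ε • H : EuclideanSpace ℝ (Fin n) →L[ℝ] _) v)) 0 with h0 | h0
  · simp only [h0, norm_zero, norm_nonneg]
  obtain ⟨g, hg1, hg2⟩ := exists_dual_vector ℝ _ (norm_ne_zero_iff.2 h0)
  set θ := (InnerProductSpace.toDual ℝ (EuclideanSpace ℝ (Fin n))).symm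
    (g.comp (A0 : EuclideanSpace ℝ (Fin n) →L[ℝ] X)) with hθdef
  have hθv : ∀ x, ⟪θ, x⟫ = g (A0 x) := fun x => by
    simp [hθdef, InnerProductSpace.toDual_symm_apply]
  have hθ : θ ∈ Θ := fun x => by
    rw [hθv, ← Real.norm_eq_abs]
    simpa [hg1] using g.le_opNorm (A0 x)
  have h1 : g (A0 ((1 + ε • H : EuclideanSpace ℝ (Fin n) →L[ℝ] _) v)) =
      ⟪θ + ε • ContinuousLinearMap.adjoint H θ, v⟫ := by
    rw [← hθv]
    simp [inner_add_right, inner_add_left, real_inner_smul_left, real_inner_smul_right,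
      ContinuousLinearMap.adjoint_inner_left]
  have h2 : ‖θ + ε • ContinuousLinearMap.adjoint H θ‖ ^ 2 ≤ 1 := by
    rw [norm_add_sq_real, real_inner_smul_right, ContinuousLinearMap.adjoint_inner_right,
      real_inner_comm θ (H θ), norm_smul, Real.norm_of_nonneg hε0.le, mul_pow]
    have hθ1 := hΘnorm θ hθ
    have h3 : ‖ContinuousLinearMap.adjoint H θ‖ ≤ C := by
      refine ((ContinuousLinearMap.adjoint H).le_opNorm θ).trans ?_
      nlinarith [norm_nonneg (ContinuousLinearMap.adjoint H)]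
    have h3' : ‖ContinuousLinearMap.adjoint H θ‖ ^ 2 ≤ C ^ 2 :=
      pow_le_pow_left₀ (norm_nonneg _) h3 2
    have h4 : ⟪θ, H θ⟫ ≤ C := by
      rw [← ContinuousLinearMap.adjoint_inner_left]
      refine (real_inner_le_norm _ _).trans ?_
      nlinarith [norm_nonneg (ContinuousLinearMap.adjoint H θ), norm_nonneg θ]
    have h5 : ‖θ‖ ^ 2 ≤ 1 := pow_le_one₀ (norm_nonneg _) hθ1
    have h6 : ε * C ≤ ε * C ^ 2 := mul_le_mul_of_nonneg_left (by nlinarith) hε0.le
    have h7 : ε ^ 2 * C ^ 2 ≤ ε * C ^ 2 := mul_le_mul_of_nonneg_right (by nlinarith) (sq_nonneg _)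
    have h8 := mul_le_mul_of_nonneg_left h3' (sq_nonneg ε)
    have h9 := mul_le_mul_of_nonneg_left h4 hε0.le
    rcases le_max_iff.1 (hη θ hθ) with h | h
    · nlinarith
    · nlinarith [mul_le_mul_of_nonneg_left h hε0.le, mul_lt_mul_of_pos_left hb1 hε0]
  have h3 : g (A0 ((1 + ε • H : EuclideanSpace ℝ (Fin n) →L[ℝ] _) v)) =
      ‖A0 ((1 + ε • H : EuclideanSpace ℝ (Fin n) →L[ℝ] _) v)‖ := hg2
  rw [← h3, h1]
  refine (real_inner_le_norm _ _).trans (mul_le_of_le_one_left (norm_nonneg _) ?_)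
  nlinarith [norm_nonneg (θ + ε • ContinuousLinearMap.adjoint H θ)]

theorem eventually_one_lt_det
    (H : EuclideanSpace ℝ (Fin n) →L[ℝ] EuclideanSpace ℝ (Fin n))
    (htr : 0 < ∑ i, ⟪EuclideanSpace.basisFun (Fin n) ℝ i,
      H (EuclideanSpace.basisFun (Fin n) ℝ i)⟫) :
    ∀ᶠ ε in nhdsWithin (0 : ℝ) (Set.Ioi 0),
      1 < (1 + ε • H : EuclideanSpace ℝ (Fin n) →L[ℝ] EuclideanSpace ℝ (Fin n)).det := by
  set b := EuclideanSpace.basisFun (Fin n) ℝ with hb
  set M : Matrix (Fin n) (Fin n) ℝ := LinearMap.toMatrix b.toBasis b.toBasis H.toLinearMap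
    with hM
  have h1 : M.trace = ∑ i, ⟪b i, H (b i)⟫ := by
    simp [hM, Matrix.trace, LinearMap.toMatrix_apply, OrthonormalBasis.repr_apply_apply]
  rw [← h1] at htr
  set P : Polynomial ℝ :=
    (Matrix.det ((1 : Matrix (Fin n) (Fin n) (Polynomial ℝ)) +
      (Polynomial.X : Polynomial ℝ) • M.map Polynomial.C)).divX.divX with hP
  have hlim : Filter.Tendsto (fun ε : ℝ => M.trace + P.eval ε * ε) (nhdsWithin 0 (Set.Ioi 0))
      (nhds M.trace) := by
    have h : Continuous fun ε : ℝ => M.trace + P.eval ε * ε := by fun_prop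
    have := h.tendsto 0
    simp only [mul_zero, add_zero] at this
    exact this.mono_left nhdsWithin_le_nhds
  filter_upwards [hlim.eventually (eventually_gt_nhds htr), eventually_mem_nhdsWithin]
    with ε he (hε : 0 < ε)
  have : (1 + ε • H : EuclideanSpace ℝ (Fin n) →L[ℝ] EuclideanSpace ℝ (Fin n)).det =
      (1 + ε • M).det := by
    rw [ContinuousLinearMap.det, ← LinearMap.det_toMatrix b.toBasis]
    congr 1
    simp [hM, LinearMap.toMatrix_one]
  rw [this, Matrix.det_one_add_smul]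
  nlinarith

theorem exists_contactData (X : Type*) [NormedAddCommGroup X] [NormedSpace ℝ X]
    [FiniteDimensional ℝ X] [Nontrivial X] (hX : finrank ℝ X = n) :
    Nonempty (ContactData n X) := by
  classical
  have hn : 0 < n := hX ▸ finrank_pos
  obtain ⟨A0, hnorm, hmax⟩ := exists_maxDet_coord X hX
  set K : Set (EuclideanSpace ℝ (Fin n)) :=
    {ψ | ‖ψ‖ = 1 ∧ ∀ v, |⟪ψ, v⟫| ≤ ‖A0 v‖} with hK
  have hKc : IsCompact K := by
    refine (isCompact_sphere (0 : EuclideanSpace ℝ (Fin n)) 1).of_isClosed_subset ?_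
      (fun θ h => mem_sphere_zero_iff_norm.2 h.1)
    simp only [hK, Set.ofPred_and, Set.ofPred_forall]
    exact (isClosed_eq continuous_norm continuous_const).inter
      (isClosed_iInter fun v => isClosed_le (by fun_prop) continuous_const)
  set S : EuclideanSpace ℝ (Fin n) →
      (EuclideanSpace ℝ (Fin n) →L[ℝ] EuclideanSpace ℝ (Fin n)) :=
    fun ψ => InnerProductSpace.rankOne ℝ ψ ψ with hS
  have hSc : Continuous S :=
    ((InnerProductSpace.rankOne ℝ).continuous).clm_apply continuous_id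
  by_cases hmem : (n : ℝ)⁻¹ • ContinuousLinearMap.id ℝ (EuclideanSpace ℝ (Fin n)) ∈
      convexHull ℝ (S '' K)
  · obtain ⟨ι, hι, z, w, hz, -, hw0, hw1, hsum⟩ := eq_pos_convex_span_of_mem_convexHull hmem
    choose ψ hψK hψz using fun i => hz ⟨i, rfl⟩
    let eq := Fintype.equivFin ι
    refine ⟨⟨A0, hnorm, Fintype.card ι, fun k => (n : ℝ) * w (eq.symm k), fun k => ψ (eq.symm k),
      fun k => mul_nonneg n.cast_nonneg (hw0 _).le, ?_, fun k => (hψK _).1,
      fun k v => (hψK _).2 v, fun v => ?_⟩⟩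
    · rw [← Finset.mul_sum, eq.symm.sum_comp w, hw1, mul_one]
    · have h := congrArg (fun T : EuclideanSpace ℝ (Fin n) →L[ℝ] _ => (n : ℝ) • T v) hsum
      simp only [sum_apply, smul_apply, ContinuousLinearMap.id_apply,
        ← hψz, hS, InnerProductSpace.rankOne_apply, smul_smul, Finset.smul_sum] at h
      rw [mul_inv_cancel₀ (Nat.cast_ne_zero.2 hn.ne'), one_smul] at h
      refine Eq.trans ?_ h
      rw [eq.symm.sum_comp (fun i => ((n : ℝ) * w i * ⟪ψ i, v⟫) • ψ i)]
      simp only [mul_assoc]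
  exfalso
  obtain ⟨φ, u, hφK, hφI⟩ := geometric_hahn_banach_closed_point (convex_convexHull ℝ _)
    (isCompact_convexHull (hKc.image hSc)).isClosed hmem
  obtain ⟨H0, hH0⟩ := exists_operator_of_functional φ
  set H := H0 - u • ContinuousLinearMap.id ℝ _ with hH
  have hHq : ∀ θ, ⟪θ, H θ⟫ = φ (S θ) - u * ‖θ‖ ^ 2 := by
    intro θ
    simp [hH, inner_sub_right, hH0, real_inner_smul_right, hS]
  have hneg : ∀ ψ, ‖ψ‖ = 1 → (∀ v, |⟪ψ, v⟫| ≤ ‖A0 v‖) → ⟪ψ, H ψ⟫ < 0 := by
    intro ψ h1 h2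
    rw [hHq, h1, one_pow, mul_one, sub_neg]
    exact hφK _ (subset_convexHull ℝ _ ⟨ψ, ⟨h1, h2⟩, rfl⟩)
  set b := EuclideanSpace.basisFun (Fin n) ℝ with hb
  have htr : 0 < ∑ i, ⟪b i, H (b i)⟫ := by
    have h2 : (∑ i, S (b i)) = ContinuousLinearMap.id ℝ _ := by
      ext1 v
      simp only [hS, sum_apply, InnerProductSpace.rankOne_apply, ContinuousLinearMap.id_apply]
      exact b.sum_repr' v
    simp only [hHq, b.orthonormal.1, one_pow, mul_one, Finset.sum_sub_distrib, Finset.sum_const,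
      Finset.card_univ, Fintype.card_fin, nsmul_eq_mul]
    rw [← map_sum, h2, sub_pos]
    rw [map_smul, smul_eq_mul] at hφI
    rw [inv_mul_eq_div, lt_div_iff₀ (by exact_mod_cast hn)] at hφI
    linarith
  obtain ⟨ε, he1, he2⟩ :=
    ((perturb_norm_le A0 hnorm H hneg).and (eventually_one_lt_det H htr)).exists
  exact absurd (hmax _ he1) (not_le.2 (he2.trans_le (le_abs_self _)))

end Vale.Agent.P084
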