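import Mathlib

/-!
A Lipschitz map whose derivative has norm at most one almost everywhere on a convex open set
is one-Lipschitz on that set.
-/

open MeasureTheory Metric Set
open scoped NNReal

namespace Vale.Agent.P084

variable {n : ℕ}

theorem norm_sub_le_of_ae_fderiv
    {h : EuclideanSpace ℝ (Fin n) → EuclideanSpace ℝ (Fin n)} {L : ℝ≥0}
    (hh : LipschitzWith L h) {U : Set (EuclideanSpace ℝ (Fin n))} (hU : IsOpen U)
    (hconv : Convex ℝ U) (hder : ∀ᵐ x, x ∈ U → ‖fderiv ℝ h x‖ ≤ 1)
    {x y : EuclideanSpace ℝ (Fin n)} (hx : x ∈ U) (hy : y ∈ U) :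
    ‖h y - h x‖ ≤ ‖y - x‖ := by
  obtain ⟨δ, hδ0, hδ⟩ : ∃ δ, 0 < δ ∧ cthickening δ (segment ℝ x y) ⊆ U := by
    refine IsCompact.exists_cthickening_subset_open ?_ hU (hconv.segment_subset hx hy)
    rw [← convexHull_pair (𝕜 := ℝ)]
    exact (Set.toFinite {x, y}).isCompact_convexHull ℝ
  have key : ∀ ε, 0 < ε → ε ≤ δ → ‖h y - h x‖ ≤ ‖y - x‖ + 2 * L * ε := by
    intro ε hε hεδ
    set μ := (volume : Measure (EuclideanSpace ℝ (Fin n))).restrict (ball 0 ε) with hμ
    have hfin : IsFiniteMeasure μ :=
      ⟨by rw [hμ, Measure.restrict_apply_univ]; exact measure_ball_lt_top⟩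
    set m : ℝ := μ.real univ with hm
    have hmpos : 0 < m := by
      rw [hm, Measure.real, hμ, Measure.restrict_apply_univ]
      exact ENNReal.toReal_pos (measure_ball_pos volume _ hε).ne' measure_ball_lt_top.ne
    set I : EuclideanSpace ℝ (Fin n) → EuclideanSpace ℝ (Fin n) :=
      fun p => ∫ z, h (p + z) ∂μ with hI
    have hint : ∀ p, Integrable (fun z => h (p + z)) μ := by
      intro p
      have hc : Continuous fun z => h (p + z) := hh.continuous.comp (by fun_prop)
      refine Integrable.mono' (integrable_const (‖h p‖ + L * ε)) hc.aestronglyMeasurable ?_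
      rw [hμ, ae_restrict_iff' measurableSet_ball]
      refine Filter.Eventually.of_forall fun z hz => ?_
      have h1 := hh.dist_le_mul (p + z) p
      rw [dist_eq_norm, dist_eq_norm, add_sub_cancel_left] at h1
      have h2 : (L : ℝ) * ‖z‖ ≤ L * ε :=
        mul_le_mul_of_nonneg_left (mem_ball_zero_iff.1 hz).le L.coe_nonneg
      have h3 := norm_le_norm_add_norm_sub' (h (p + z)) (h p)
      linarith
    have hclose : ∀ p, ‖I p - m • h p‖ ≤ L * ε * m := by
      intro p
      have e : I p - m • h p = ∫ z, (h (p + z) - h p) ∂μ := by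
        rw [integral_sub (hint p) (integrable_const _), integral_const]
      rw [e]
      refine norm_integral_le_of_norm_le_const ?_
      rw [hμ, ae_restrict_iff' measurableSet_ball]
      refine Filter.Eventually.of_forall fun z hz => ?_
      have h1 := hh.dist_le_mul (p + z) p
      rw [dist_eq_norm, dist_eq_norm, add_sub_cancel_left] at h1
      exact h1.trans (mul_le_mul_of_nonneg_left (mem_ball_zero_iff.1 hz).le L.coe_nonneg)
    have hderI : ∀ p ∈ segment ℝ x y,
        HasFDerivWithinAt I (∫ z, fderiv ℝ h (p + z) ∂μ) (segment ℝ x y) p ∧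
          ‖∫ z, fderiv ℝ h (p + z) ∂μ‖ ≤ m := by
      intro p hp
      have hqmp := (measurePreserving_add_left
        (volume : Measure (EuclideanSpace ℝ (Fin n))) p).quasiMeasurePreserving
      have hd : ∀ᵐ z ∂μ, HasFDerivAt (fun q => h (q + z)) (fderiv ℝ h (p + z)) p := by
        refine ae_restrict_of_ae ?_
        filter_upwards [hqmp.ae hh.ae_differentiableAt] with z hz
        exact (hz.hasFDerivAt.comp p ((hasFDerivAt_id p).add_const z)).congr_fderiv (by ext; simp)
      have hbd : ∀ᵐ z ∂μ, ‖fderiv ℝ h (p + z)‖ ≤ 1 := by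
        rw [hμ, ae_restrict_iff' measurableSet_ball]
        filter_upwards [hqmp.ae hder] with z hz hzb
        refine hz (hδ ?_)
        refine mem_cthickening_of_dist_le (p + z) p δ _ hp ?_
        rw [dist_eq_norm, add_sub_cancel_left]
        exact (mem_ball_zero_iff.1 hzb).le.trans hεδ
      have hmeas : AEStronglyMeasurable (fun z => fderiv ℝ h (p + z)) μ :=
        ((measurable_fderiv ℝ h).comp (measurable_const_add p)).aestronglyMeasurable
      have hI' := (hasFDerivAt_integral_of_dominated_loc_of_lip (μ := μ)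
        (F := fun q z => h (q + z)) (x₀ := p) (bound := fun _ => (L : ℝ)) (s := univ)
        Filter.univ_mem
        (Filter.Eventually.of_forall fun q => (hint q).aestronglyMeasurable) (hint p) hmeas
        (Filter.Eventually.of_forall fun z => LipschitzOnWith.of_dist_le_mul fun a _ b _ => by
          refine (hh.dist_le_mul _ _).trans ?_
          simp [dist_add_right])
        (integrable_const _) hd).2
      refine ⟨hI'.hasFDerivWithinAt, ?_⟩
      refine (norm_integral_le_of_norm_le_const hbd).trans ?_
      rw [one_mul]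
    have hmvt := (convex_segment x y).norm_image_sub_le_of_norm_hasFDerivWithin_le
      (fun p hp => (hderI p hp).1) (fun p hp => (hderI p hp).2)
      (left_mem_segment ℝ x y) (right_mem_segment ℝ x y)
    have e : m • (h y - h x) = (I y - I x) - (I y - m • h y) + (I x - m • h x) := by
      rw [smul_sub]; abel
    have h1 : m * ‖h y - h x‖ ≤ m * (‖y - x‖ + 2 * L * ε) := by
      calc m * ‖h y - h x‖ = ‖m • (h y - h x)‖ := by
            rw [norm_smul, Real.norm_of_nonneg hmpos.le]
        _ ≤ ‖I y - I x‖ + ‖I y - m • h y‖ + ‖I x - m • h x‖ := by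
            rw [e]
            exact (norm_add_le _ _).trans (add_le_add (norm_sub_le _ _) le_rfl)
        _ ≤ m * (‖y - x‖ + 2 * L * ε) := by
            linarith [hclose x, hclose y]
    exact le_of_mul_le_mul_left h1 hmpos
  refine le_of_forall_pos_le_add fun c hc => ?_
  have hL : (0 : ℝ) ≤ L := L.coe_nonneg
  refine (key (min δ (c / (2 * L + 1))) (lt_min hδ0 (by positivity)) (min_le_left _ _)).trans ?_
  have h2 : (2 * (L : ℝ)) * min δ (c / (2 * L + 1)) ≤ c := by
    refine (mul_le_mul_of_nonneg_left (min_le_right _ _) (by positivity)).trans ?_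
    rw [← mul_div_assoc, div_le_iff₀ (by positivity)]
    nlinarith
  linarith

end Vale.Agent.P084
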