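import Vale.Agent.P084.LipTopology
import Vale.Agent.P084.Contacts
import Vale.Agent.P084.Smoothing

/-!
Surjective isometries between unit spheres of finite dimensional real normed spaces are linear.
-/

open MeasureTheory Metric Set Module
open scoped RealInnerProductSpace NNReal ENNReal

namespace Vale.Agent.P084

section radial

variable {X Y : Type*} [NormedAddCommGroup X] [NormedSpace ℝ X] [NormedAddCommGroup Y]
  [NormedSpace ℝ Y]

/-- The positively homogeneous extension of a map between unit spheres. -/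
noncomputable def radial (f : sphere (0 : X) 1 → sphere (0 : Y) 1) (x : X) : Y :=
  open Classical in
  if h : x = 0 then 0 else
    ‖x‖ • (f ⟨‖x‖⁻¹ • x, by simp [norm_smul, norm_ne_zero_iff.2 h]⟩ : Y)

theorem radial_zero (f : sphere (0 : X) 1 → sphere (0 : Y) 1) : radial f 0 = 0 := by
  simp [radial]

theorem radial_sphere (f : sphere (0 : X) 1 → sphere (0 : Y) 1) (x : sphere (0 : X) 1) :
    radial f x = f x := by
  have h1 : ‖(x : X)‖ = 1 := norm_eq_of_mem_sphere x
  have h0 : (x : X) ≠ 0 := fun h => by simp [h] at h1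
  simp [radial, h0, h1]

theorem norm_radial (f : sphere (0 : X) 1 → sphere (0 : Y) 1) (x : X) :
    ‖radial f x‖ = ‖x‖ := by
  by_cases h : x = 0
  · simp [radial, h]
  · simp [radial, h, norm_smul]

theorem radial_lipschitz (f : sphere (0 : X) 1 → sphere (0 : Y) 1) (hf : Isometry f) :
    LipschitzWith 3 (radial f) := by
  refine LipschitzWith.of_dist_le_mul fun x y => ?_
  rw [dist_eq_norm, dist_eq_norm]
  push_cast
  by_cases hx : x = 0
  · simp only [hx, radial_zero, zero_sub, norm_neg, norm_radial]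
    linarith [norm_nonneg y]
  by_cases hy : y = 0
  · simp only [hy, radial_zero, sub_zero, norm_radial]
    linarith [norm_nonneg x]
  set u : sphere (0 : X) 1 := ⟨‖x‖⁻¹ • x, by simp [norm_smul, norm_ne_zero_iff.2 hx]⟩ with hu
  set v : sphere (0 : X) 1 := ⟨‖y‖⁻¹ • y, by simp [norm_smul, norm_ne_zero_iff.2 hy]⟩ with hv
  have e : radial f x - radial f y =
      ‖x‖ • ((f u : Y) - (f v : Y)) + (‖x‖ - ‖y‖) • (f v : Y) := by
    simp only [radial, dif_neg hx, dif_neg hy, smul_sub, sub_smul, ← hu, ← hv]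
    abel
  rw [e]
  refine (norm_add_le _ _).trans ?_
  have h1 : ‖(f u : Y) - (f v : Y)‖ = ‖(u : X) - (v : X)‖ := by
    rw [← dist_eq_norm, ← dist_eq_norm, ← Subtype.dist_eq, ← Subtype.dist_eq, hf.dist_eq]
  rw [norm_smul, norm_smul, Real.norm_of_nonneg (norm_nonneg x), h1, norm_eq_of_mem_sphere,
    mul_one, Real.norm_eq_abs]
  have h2 : ‖x‖ * ‖(u : X) - (v : X)‖ ≤ 2 * ‖x - y‖ := norm_smul_inv_sub_le hx hy
  linarith [abs_norm_sub_norm_le x y]

theorem radial_radial (f : sphere (0 : X) 1 → sphere (0 : Y) 1)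
    (g : sphere (0 : Y) 1 → sphere (0 : X) 1) (hgf : ∀ a, g (f a) = a) (x : X) :
    radial g (radial f x) = x := by
  by_cases hx : x = 0
  · simp [radial, hx]
  set u : sphere (0 : X) 1 := ⟨‖x‖⁻¹ • x, by simp [norm_smul, norm_ne_zero_iff.2 hx]⟩ with hu
  have hn : ‖x‖ ≠ 0 := norm_ne_zero_iff.2 hx
  have h0 : radial f x ≠ 0 := fun h => hn (by rw [← norm_radial f x, h, norm_zero])
  have h1 : radial f x = ‖x‖ • (f u : Y) := by simp [radial, hx, hu]
  have h2 : (⟨‖radial f x‖⁻¹ • radial f x, by simp [norm_smul, norm_ne_zero_iff.2 h0]⟩ :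
      sphere (0 : Y) 1) = f u := by
    apply Subtype.ext
    show ‖radial f x‖⁻¹ • radial f x = (f u : Y)
    rw [norm_radial, h1, smul_smul, inv_mul_cancel₀ hn, one_smul]
  rw [radial, dif_neg h0, h2, hgf, norm_radial]
  simp [hu, smul_smul, mul_inv_cancel₀ hn]

end radial

variable {n : ℕ} {X Y : Type*} [NormedAddCommGroup X] [NormedSpace ℝ X] [NormedAddCommGroup Y]
  [NormedSpace ℝ Y]

/-- The open unit ball of a normed space in Euclidean coordinates. -/
def unitBody (D : ContactData n X) : Set (EuclideanSpace ℝ (Fin n)) :=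
  {v | ‖D.coord v‖ < 1}

theorem isOpen_unitBody (D : ContactData n X) : IsOpen (unitBody D) :=
  isOpen_lt (by fun_prop) continuous_const

theorem convex_unitBody (D : ContactData n X) : Convex ℝ (unitBody D) := by
  have h : unitBody D = (D.coord : EuclideanSpace ℝ (Fin n) →L[ℝ] X).toLinearMap ⁻¹' ball 0 1 := by
    ext v; simp [unitBody]
  rw [h]
  exact (convex_ball (0 : X) 1).linear_preimage _

theorem isBounded_unitBody (D : ContactData n X) : Bornology.IsBounded (unitBody D) := by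
  refine isBounded_iff_forall_norm_le.2
    ⟨‖(D.coord.symm : X →L[ℝ] EuclideanSpace ℝ (Fin n))‖, fun v hv => ?_⟩
  have := (D.coord.symm : X →L[ℝ] EuclideanSpace ℝ (Fin n)).le_opNorm (D.coord v)
  simp only [ContinuousLinearEquiv.coe_coe, ContinuousLinearEquiv.symm_apply_apply] at this
  refine this.trans (mul_le_of_le_one_right (norm_nonneg _) ?_)
  exact le_of_lt hv

/-- A Lipschitz extension of a sphere isometry whose derivatives are frame maps. -/
theorem exists_good_extension (DX : ContactData n X) (DY : ContactData n Y)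
    (f : sphere (0 : X) 1 → sphere (0 : Y) 1) (g : sphere (0 : Y) 1 → sphere (0 : X) 1)
    (hf : Isometry f) (hg : Isometry g) (hgf : ∀ a, g (f a) = a) :
    ∃ (Φ : EuclideanSpace ℝ (Fin n) → EuclideanSpace ℝ (Fin n)) (L : ℝ≥0),
      LipschitzWith L Φ ∧
      (∀ v, ‖DX.coord v‖ = 1 → Φ v = DY.coord.symm (radial f (DX.coord v))) ∧
      (∀ᵐ x, |(fderiv ℝ Φ x).det| ≤ 1 ∧
        (|(fderiv ℝ Φ x).det| = 1 → ‖fderiv ℝ Φ x‖ ≤ 1)) ∧
      unitBody DY ⊆ Φ '' unitBody DX := by
  classical
  set F : EuclideanSpace ℝ (Fin n) → EuclideanSpace ℝ (Fin n) :=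
    fun v => DY.coord.symm (radial f (DX.coord v)) with hF
  set F' : EuclideanSpace ℝ (Fin n) → EuclideanSpace ℝ (Fin n) :=
    fun v => DX.coord.symm (radial g (DY.coord v)) with hF'
  have hgF : ∀ v, F' (F v) = v := fun v => by simp [hF, hF', radial_radial f g hgf]
  obtain ⟨KF, hKF⟩ : ∃ K, LipschitzWith K F :=
    ⟨_, ((DY.coord.symm : Y →L[ℝ] EuclideanSpace ℝ (Fin n)).lipschitz.comp
      ((radial_lipschitz f hf).comp
        (DX.coord : EuclideanSpace ℝ (Fin n) →L[ℝ] X).lipschitz))⟩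
  obtain ⟨KF', hKF'⟩ : ∃ K, LipschitzWith K F' :=
    ⟨_, ((DX.coord.symm : X →L[ℝ] EuclideanSpace ℝ (Fin n)).lipschitz.comp
      ((radial_lipschitz g hg).comp
        (DY.coord : EuclideanSpace ℝ (Fin n) →L[ℝ] Y).lipschitz))⟩
  have hone : ∀ i, LipschitzOnWith 1 (fun v => ⟪DY.vec i, F v⟫) {v | ‖DX.coord v‖ = 1} := by
    intro i
    refine LipschitzOnWith.of_dist_le_mul fun a ha b hb => ?_
    rw [Real.dist_eq, NNReal.coe_one, one_mul, dist_eq_norm, ← inner_sub_right]
    refine (DY.vec_le i _).trans ?_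
    have hd : DY.coord (F a - F b) = radial f (DX.coord a) - radial f (DX.coord b) := by
      simp [hF, map_sub]
    rw [hd]
    refine le_trans (le_of_eq ?_) ((map_sub DX.coord a b ▸ DX.norm_le (a - b)) :
      ‖DX.coord a - DX.coord b‖ ≤ ‖a - b‖)
    have ea := radial_sphere f ⟨DX.coord a, mem_sphere_zero_iff_norm.2 ha⟩
    have eb := radial_sphere f ⟨DX.coord b, mem_sphere_zero_iff_norm.2 hb⟩
    simp only at ea eb
    rw [ea, eb, ← dist_eq_norm, ← dist_eq_norm, ← Subtype.dist_eq, hf.dist_eq, Subtype.dist_eq]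
  choose φ hφlip hφeq using fun i => (hone i).extend_real
  set Φ : EuclideanSpace ℝ (Fin n) → EuclideanSpace ℝ (Fin n) :=
    fun v => ∑ i, (DY.weight i * φ i v) • DY.vec i with hΦ
  have hΦlip : LipschitzWith (n : ℝ≥0) Φ := by
    refine LipschitzWith.of_dist_le_mul fun a b => ?_
    rw [dist_eq_norm, NNReal.coe_natCast, ← DY.weight_sum, Finset.sum_mul]
    simp only [hΦ, ← Finset.sum_sub_distrib, ← sub_smul, ← mul_sub]
    refine norm_sum_le_of_le _ fun i _ => ?_
    rw [norm_smul, DY.vec_norm i, mul_one, norm_mul, Real.norm_of_nonneg (DY.weight_nonneg i)]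
    refine mul_le_mul_of_nonneg_left ?_ (DY.weight_nonneg i)
    have := (hφlip i).dist_le_mul a b
    simpa [Real.dist_eq] using this
  have hΦsphere : ∀ v, ‖DX.coord v‖ = 1 → Φ v = F v := by
    intro v hv
    simp only [hΦ]
    conv_rhs => rw [← DY.decomp (F v)]
    refine Finset.sum_congr rfl fun i _ => ?_
    rw [← hφeq i (show v ∈ {v | ‖DX.coord v‖ = 1} from hv)]
  refine ⟨Φ, n, hΦlip, hΦsphere, ?_, ?_⟩
  · have hall : ∀ᵐ x, ∀ i, DifferentiableAt ℝ (φ i) x :=
      ae_all_iff.2 fun i => (hφlip i).ae_differentiableAt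
    filter_upwards [hall] with x hx
    set θ : Fin DY.m → EuclideanSpace ℝ (Fin n) := fun i =>
      (InnerProductSpace.toDual ℝ (EuclideanSpace ℝ (Fin n))).symm (fderiv ℝ (φ i) x) with hθ
    have hθ1 : ∀ i, ‖θ i‖ ≤ 1 := fun i => by
      simpa [hθ] using norm_fderiv_le_of_lipschitz ℝ (hφlip i) (x₀ := x)
    have hd : HasFDerivAt Φ
        (∑ i, ((DY.weight i • fderiv ℝ (φ i) x).smulRight (DY.vec i))) x := by
      simp only [hΦ]
      exact HasFDerivAt.fun_sum fun i _ =>
        (((hx i).hasFDerivAt.const_mul (DY.weight i)).smul_const (DY.vec i))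
    rw [hd.fderiv]
    obtain ⟨hdet, heq⟩ := frame_det DY.weight DY.vec θ DY.weight_nonneg DY.weight_sum DY.decomp hθ1
      (∑ i, ((DY.weight i • fderiv ℝ (φ i) x).smulRight (DY.vec i)))
      (fun v => by simp [hθ, InnerProductSpace.toDual_symm_apply])
    exact ⟨hdet, fun h => ContinuousLinearMap.opNorm_le_bound _ zero_le_one
      fun v => by rw [one_mul, heq h v]⟩
  · set π : EuclideanSpace ℝ (Fin n) → EuclideanSpace ℝ (Fin n) :=
      fun v => DX.coord.symm (ballProj 1 (DX.coord v)) with hπ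
    obtain ⟨Kπ, hKπ⟩ : ∃ K, LipschitzWith K π :=
      ⟨_, ((DX.coord.symm : X →L[ℝ] EuclideanSpace ℝ (Fin n)).lipschitz.comp
        ((ballProj_lipschitz one_pos).comp
          (DX.coord : EuclideanSpace ℝ (Fin n) →L[ℝ] X).lipschitz))⟩
    set Φb : EuclideanSpace ℝ (Fin n) → EuclideanSpace ℝ (Fin n) :=
      fun v => F v + (Φ (π v) - F (π v)) with hΦb
    have hlip : LipschitzWith (KF' * (KF + ((n : ℝ≥0) * Kπ + KF * Kπ))) (fun v => F' (Φb v)) :=
      hKF'.comp (hKF.add ((hΦlip.comp hKπ).sub (hKF.comp hKπ)))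
    have hout : ∀ v, 1 ≤ ‖DX.coord v‖ → Φb v = F v := by
      intro v hv
      have h1 : ‖DX.coord (π v)‖ = 1 := by
        simp [hπ, norm_ballProj_of_ge one_pos hv]
      simp [hΦb, hΦsphere _ h1]
    have hsurj := surjective_of_eq_id_outside hlip (R := ‖(DX.coord.symm : X →L[ℝ]
      EuclideanSpace ℝ (Fin n))‖ + 1) (fun v hv => by
        have h1 : 1 ≤ ‖DX.coord v‖ := by
          by_contra hlt
          have h2 := (DX.coord.symm : X →L[ℝ] EuclideanSpace ℝ (Fin n)).le_opNorm (DX.coord v)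
          simp only [ContinuousLinearEquiv.coe_coe, ContinuousLinearEquiv.symm_apply_apply] at h2
          nlinarith [norm_nonneg (DX.coord.symm : X →L[ℝ] EuclideanSpace ℝ (Fin n)),
            norm_nonneg (DX.coord v)]
        rw [hout v h1, hgF])
    intro y hy
    obtain ⟨x, hx⟩ := hsurj (F' y)
    have hx1 : ‖DX.coord x‖ < 1 := by
      by_contra hge
      dsimp only at hx
      rw [hout x (not_lt.1 hge), hgF] at hx
      apply hge
      rw [hx]
      simpa [hF', norm_radial, unitBody] using hy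
    have hxΦ : Φb x = Φ x := by
      simp [hΦb, hπ, ballProj_of_le one_pos hx1.le]
    refine ⟨x, hx1, ?_⟩
    have hfg : ∀ p, f (g p) = p := fun p => hg.injective (hgf (g p))
    have hinj : Function.Injective F' := fun p q hpq => by
      have h2 : radial g (DY.coord p) = radial g (DY.coord q) := DX.coord.symm.injective hpq
      have h3 := radial_radial g f hfg (DY.coord p)
      rw [h2, radial_radial g f hfg] at h3
      exact DY.coord.injective h3.symm
    rw [← hxΦ]
    exact hinj hx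

theorem volume_le (DX : ContactData n X) (DY : ContactData n Y)
    (f : sphere (0 : X) 1 → sphere (0 : Y) 1) (g : sphere (0 : Y) 1 → sphere (0 : X) 1)
    (hf : Isometry f) (hg : Isometry g) (hgf : ∀ a, g (f a) = a) :
    volume (unitBody DY) ≤ volume (unitBody DX) := by
  obtain ⟨Φ, L, hlip, -, hdet, hcov⟩ := exists_good_extension DX DY f g hf hg hgf
  calc volume (unitBody DY) ≤ volume (Φ '' unitBody DX) := measure_mono hcov
    _ ≤ ∫⁻ x in unitBody DX, ENNReal.ofReal |(fderiv ℝ Φ x).det| :=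
        volume_le_lintegral_det hlip (isOpen_unitBody DX).measurableSet
    _ ≤ ∫⁻ _ in unitBody DX, 1 := by
        refine lintegral_mono_ae (ae_restrict_of_ae ?_)
        filter_upwards [hdet] with x hx
        exact ENNReal.ofReal_le_one.2 hx.1
    _ = volume (unitBody DX) := by simp

/-- In maximal ellipsoid coordinates a sphere isometry does not increase Euclidean distances. -/
theorem euclidean_contracting (DX : ContactData n X) (DY : ContactData n Y)
    (f : sphere (0 : X) 1 → sphere (0 : Y) 1) (g : sphere (0 : Y) 1 → sphere (0 : X) 1)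
    (hf : Isometry f) (hg : Isometry g) (hgf : ∀ a, g (f a) = a) (hfg : ∀ a, f (g a) = a)
    (a b : sphere (0 : X) 1) :
    ‖DY.coord.symm (f a : Y) - DY.coord.symm (f b : Y)‖ ≤
      ‖DX.coord.symm (a : X) - DX.coord.symm (b : X)‖ := by
  have hvol : volume (unitBody DY) = volume (unitBody DX) :=
    le_antisymm (volume_le DX DY f g hf hg hgf) (volume_le DY DX g f hg hf hfg)
  obtain ⟨Φ, L, hlip, hsph, hdet, hcov⟩ := exists_good_extension DX DY f g hf hg hgf
  set U := unitBody DX with hU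
  have hUm : MeasurableSet U := (isOpen_unitBody DX).measurableSet
  have hUfin : volume U ≠ ∞ := (isBounded_unitBody DX).measure_lt_top.ne
  have hle : (fun x => ENNReal.ofReal |(fderiv ℝ Φ x).det|) ≤ᵐ[volume.restrict U] fun _ => 1 := by
    refine ae_restrict_of_ae ?_
    filter_upwards [hdet] with x hx
    exact ENNReal.ofReal_le_one.2 hx.1
  have hge : ∫⁻ _ in U, (1 : ℝ≥0∞) ≤ ∫⁻ x in U, ENNReal.ofReal |(fderiv ℝ Φ x).det| := by
    rw [setLIntegral_one, ← hvol]
    exact (measure_mono hcov).trans (volume_le_lintegral_det hlip hUm)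
  have hfin : ∫⁻ x in U, ENNReal.ofReal |(fderiv ℝ Φ x).det| ≠ ∞ := by
    refine ne_top_of_le_ne_top hUfin ?_
    refine (lintegral_mono_ae hle).trans ?_
    simp
  have heq := ae_eq_of_ae_le_of_lintegral_le hle hfin aemeasurable_const hge
  have hder : ∀ᵐ x, x ∈ U → ‖fderiv ℝ Φ x‖ ≤ 1 := by
    rw [← ae_restrict_iff' hUm]
    filter_upwards [heq, ae_restrict_of_ae hdet] with x hx hx'
    refine hx'.2 (le_antisymm hx'.1 ?_)
    exact ENNReal.one_le_ofReal.1 hx.ge
  set p := DX.coord.symm (a : X) with hp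
  set q := DX.coord.symm (b : X) with hq
  have hs : ∀ c : sphere (0 : X) 1, Φ (DX.coord.symm (c : X)) = DY.coord.symm (f c : Y) := by
    intro c
    rw [hsph _ (by simp [norm_eq_of_mem_sphere c]), ContinuousLinearEquiv.apply_symm_apply,
      radial_sphere]
  rw [← hs a, ← hs b, ← hp, ← hq]
  have hlim : ∀ᶠ t in nhdsWithin (1 : ℝ) (Set.Iio 1), ‖Φ (t • p) - Φ (t • q)‖ ≤ ‖t • p - t • q‖ := by
    filter_upwards [Ioo_mem_nhdsLT (show (0 : ℝ) < 1 from one_pos)] with t ht
    have hmem : ∀ c : sphere (0 : X) 1, t • DX.coord.symm (c : X) ∈ U := by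
      intro c
      simp [hU, unitBody, norm_smul, abs_of_pos ht.1, ht.2]
    exact norm_sub_le_of_ae_fderiv hlip (isOpen_unitBody DX) (convex_unitBody DX) hder
      (hmem b) (hmem a)
  have hc1 : Continuous fun t : ℝ => ‖Φ (t • p) - Φ (t • q)‖ :=
    ((hlip.continuous.comp (by fun_prop)).sub (hlip.continuous.comp (by fun_prop))).norm
  have hc2 : Continuous fun t : ℝ => ‖t • p - t • q‖ := by fun_prop
  have := le_of_tendsto_of_tendsto ((hc1.tendsto 1).mono_left nhdsWithin_le_nhds)
    ((hc2.tendsto 1).mono_left nhdsWithin_le_nhds) hlim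
  simpa using this

/-- A Euclidean isometry between two spanning subsets is affine. -/
theorem exists_affine {s : Set (EuclideanSpace ℝ (Fin n))}
    (F : EuclideanSpace ℝ (Fin n) → EuclideanSpace ℝ (Fin n)) {x0 : EuclideanSpace ℝ (Fin n)}
    (hx0 : x0 ∈ s) (hspan : Submodule.span ℝ ((fun x => x - x0) '' s) = ⊤)
    (hiso : ∀ x ∈ s, ∀ y ∈ s, ‖F x - F y‖ = ‖x - y‖) :
    ∃ (R : EuclideanSpace ℝ (Fin n) ≃ₗ[ℝ] EuclideanSpace ℝ (Fin n))
      (a : EuclideanSpace ℝ (Fin n)), ∀ x ∈ s, F x = R x + a := by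
  obtain ⟨B, hBD, hBspan, hBli⟩ :=
    exists_linearIndependent ℝ ((fun x => x - x0) '' s)
  let b := Basis.mk hBli (le_of_eq (by rw [Subtype.range_coe, hBspan, hspan]))
  have hinner : ∀ x ∈ s, ∀ y ∈ s, ⟪F x - F x0, F y - F x0⟫ = ⟪x - x0, y - x0⟫ := by
    intro x hx y hy
    rw [real_inner_eq_norm_mul_self_add_norm_mul_self_sub_norm_sub_mul_self_div_two,
      real_inner_eq_norm_mul_self_add_norm_mul_self_sub_norm_sub_mul_self_div_two,
      sub_sub_sub_cancel_right, sub_sub_sub_cancel_right, hiso x hx x0 hx0, hiso y hy x0 hx0,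
      hiso x hx y hy]
  let R := b.constr ℝ fun i => F ((i : EuclideanSpace ℝ (Fin n)) + x0) - F x0
  have hbs : ∀ i : B, (i : EuclideanSpace ℝ (Fin n)) + x0 ∈ s := by
    intro i
    obtain ⟨x, hx, hxi⟩ := hBD i.2
    simpa [← hxi] using hx
  have hRb : ∀ i, R (b i) = F ((i : EuclideanSpace ℝ (Fin n)) + x0) - F x0 :=
    fun i => b.constr_basis ℝ _ i
  have hRinner : ∀ v w, ⟪R v, R w⟫ = ⟪v, w⟫ := by
    have h : (innerₗ (EuclideanSpace ℝ (Fin n))).compl₁₂ R R = innerₗ _ := by
      apply LinearMap.ext_basis b b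
      intro i j
      simp only [LinearMap.compl₁₂_apply, innerₗ_apply_apply, hRb]
      rw [hinner _ (hbs i) _ (hbs j)]
      simp [b]
    intro v w
    simpa using LinearMap.congr_fun₂ h v w
  have hRinj : Function.Injective R := by
    intro v w hvw
    have h := hRinner (v - w) (v - w)
    rw [map_sub, hvw, sub_self, inner_zero_left] at h
    exact sub_eq_zero.1 (inner_self_eq_zero.1 h.symm)
  let Re := LinearEquiv.ofBijective R
    ⟨hRinj, LinearMap.surjective_of_injective (f := R) hRinj⟩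
  refine ⟨Re, F x0 - R x0, fun x hx => ?_⟩
  have hkey : F x - F x0 = R (x - x0) := by
    refine ext_inner_right ℝ fun w => ?_
    obtain ⟨v, rfl⟩ := Re.surjective w
    have h : (innerₗ _ (F x - F x0)).comp R = innerₗ _ (x - x0) := by
      apply b.ext
      intro i
      simp only [LinearMap.comp_apply, innerₗ_apply_apply, hRb]
      rw [hinner _ hx _ (hbs i)]
      simp [b]
    have h' : ⟪F x - F x0, R v⟫ = ⟪x - x0, v⟫ := LinearMap.congr_fun h v
    show ⟪F x - F x0, R v⟫ = ⟪R (x - x0), R v⟫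
    rw [hRinner, h']
  show F x = R x + (F x0 - R x0)
  rw [map_sub] at hkey
  rw [← sub_add_cancel (F x) (F x0), hkey]
  abel

theorem finiteDimensional_target [FiniteDimensional ℝ X]
    (f : sphere (0 : X) 1 → sphere (0 : Y) 1) (g : sphere (0 : Y) 1 → sphere (0 : X) 1)
    (hf : Isometry f) (hfg : ∀ a, f (g a) = a) : FiniteDimensional ℝ Y := by
  have : ProperSpace X := FiniteDimensional.proper ℝ X
  have hc : IsCompact (closedBall (0 : Y) 1) := by
    refine ((isCompact_closedBall (0 : X) 1).image (radial_lipschitz f hf).continuous).of_isClosed_subset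
      isClosed_closedBall fun y hy => ⟨radial g y, ?_, radial_radial g f hfg y⟩
    simpa [norm_radial] using hy
  exact FiniteDimensional.of_isCompact_closedBall (𝕜 := ℝ) one_pos hc

theorem finrank_eq_of_sphere_isometry [FiniteDimensional ℝ X] [FiniteDimensional ℝ Y]
    (f : sphere (0 : X) 1 → sphere (0 : Y) 1) (g : sphere (0 : Y) 1 → sphere (0 : X) 1)
    (hf : Isometry f) (hg : Isometry g) (hgf : ∀ a, g (f a) = a) (hfg : ∀ a, f (g a) = a) :
    finrank ℝ X = finrank ℝ Y := by
  have h1 : dimH (univ : Set Y) ≤ dimH (univ : Set X) := by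
    have : radial f '' univ = univ :=
      eq_univ_of_forall fun y => ⟨radial g y, trivial, radial_radial g f hfg y⟩
    rw [← this]
    exact (radial_lipschitz f hf).dimH_image_le _
  have h2 : dimH (univ : Set X) ≤ dimH (univ : Set Y) := by
    have : radial g '' univ = univ :=
      eq_univ_of_forall fun x => ⟨radial f x, trivial, radial_radial f g hgf x⟩
    rw [← this]
    exact (radial_lipschitz g hg).dimH_image_le _
  have h := le_antisymm h1 h2
  rw [Real.dimH_univ_eq_finrank, Real.dimH_univ_eq_finrank] at h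
  exact_mod_cast h.symm

theorem tingley_nontrivial [FiniteDimensional ℝ X] [Nontrivial X]
    (f : sphere (0 : X) 1 → sphere (0 : Y) 1) (hf : Isometry f) (hsurj : Function.Surjective f) :
    ∃ T : X ≃ₗᵢ[ℝ] Y, ∀ x : sphere (0 : X) 1, T x = f x := by
  classical
  set g := Function.surjInv hsurj with hgdef
  have hfg : ∀ a, f (g a) = a := Function.surjInv_eq hsurj
  have hgf : ∀ a, g (f a) = a := fun a => hf.injective (hfg _)
  have hg : Isometry g := Isometry.of_dist_eq fun a b => by
    rw [← hf.dist_eq, hfg, hfg]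
  have : FiniteDimensional ℝ Y := finiteDimensional_target f g hf hfg
  have : Nontrivial Y := by
    obtain ⟨x, hx⟩ := exists_norm_eq X (zero_le_one' ℝ)
    refine ⟨⟨(f ⟨x, mem_sphere_zero_iff_norm.2 hx⟩ : Y), 0, fun h => ?_⟩⟩
    have := norm_eq_of_mem_sphere (f ⟨x, mem_sphere_zero_iff_norm.2 hx⟩)
    rw [h, norm_zero] at this
    exact zero_ne_one this
  obtain ⟨DX⟩ := exists_contactData (n := finrank ℝ X) X rfl
  obtain ⟨DY⟩ := exists_contactData (n := finrank ℝ X) Y
    (finrank_eq_of_sphere_isometry f g hf hg hgf hfg).symm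
  set s := {v | ‖DX.coord v‖ = 1} with hs
  set F := fun v => DY.coord.symm (radial f (DX.coord v)) with hF
  have hFs : ∀ c : sphere (0 : X) 1, F (DX.coord.symm (c : X)) = DY.coord.symm (f c : Y) := by
    intro c; simp [hF, radial_sphere]
  have hiso : ∀ x ∈ s, ∀ y ∈ s, ‖F x - F y‖ = ‖x - y‖ := by
    intro x hx y hy
    set a : sphere (0 : X) 1 := ⟨DX.coord x, mem_sphere_zero_iff_norm.2 hx⟩ with ha
    set b : sphere (0 : X) 1 := ⟨DX.coord y, mem_sphere_zero_iff_norm.2 hy⟩ with hb
    have h1 := euclidean_contracting DX DY f g hf hg hgf hfg a b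
    have h2 := euclidean_contracting DY DX g f hg hf hfg hgf (f a) (f b)
    rw [hgf, hgf] at h2
    rw [← hFs, ← hFs] at h1 h2
    simp only [ha, hb, ContinuousLinearEquiv.symm_apply_apply] at h1 h2
    exact le_antisymm h1 h2
  have hnorm : ∀ v : EuclideanSpace ℝ (Fin (finrank ℝ X)), v ≠ 0 →
      ‖DX.coord v‖⁻¹ • v ∈ s ∧ -(‖DX.coord v‖⁻¹ • v) ∈ s := by
    intro v hv
    have : ‖DX.coord v‖ ≠ 0 := by simpa using hv
    constructor <;> simp [hs, norm_smul, this]
  have : Nontrivial (EuclideanSpace ℝ (Fin (finrank ℝ X))) := DX.coord.toEquiv.nontrivial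
  obtain ⟨x1, hx1⟩ := exists_ne (0 : EuclideanSpace ℝ (Fin (finrank ℝ X)))
  obtain ⟨x0, hx0⟩ : ∃ x0, x0 ∈ s := ⟨_, (hnorm x1 hx1).1⟩
  have hspan : Submodule.span ℝ ((fun x => x - x0) '' s) = ⊤ := by
    rw [eq_top_iff]
    intro v _
    by_cases hv : v = 0
    · simp [hv]
    set c := ‖DX.coord v‖⁻¹ with hc
    have hc0 : c ≠ 0 := by simpa [hc] using hv
    have e : v = (2 * c)⁻¹ • ((c • v - x0) - (-(c • v) - x0)) := by
      rw [sub_sub_sub_cancel_right, sub_neg_eq_add, ← two_smul ℝ, smul_smul, smul_smul]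
      field_simp
      simp
    rw [e]
    exact Submodule.smul_mem _ _ (Submodule.sub_mem _
      (Submodule.subset_span ⟨_, (hnorm v hv).1, rfl⟩)
      (Submodule.subset_span ⟨_, (hnorm v hv).2, rfl⟩))
  obtain ⟨R, a, hRa⟩ := exists_affine F hx0 hspan hiso
  have honto : ∀ w, ‖DY.coord w‖ = 1 → ∃ v ∈ s, R v + a = w := by
    intro w hw
    obtain ⟨c, hc⟩ := hsurj ⟨DY.coord w, mem_sphere_zero_iff_norm.2 hw⟩
    refine ⟨DX.coord.symm (c : X), by simp [hs], ?_⟩
    rw [← hRa _ (by simp [hs]), hFs, hc]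
    simp
  have hrefl : ∀ w, ‖DY.coord w‖ = 1 → ‖DY.coord (w - (2 : ℝ) • a)‖ = 1 := by
    intro w hw
    obtain ⟨v, hv, rfl⟩ := honto w hw
    have hv' : -v ∈ s := by simpa [hs] using hv
    have h := hRa _ hv'
    have h' : ‖DY.coord (F (-v))‖ = 1 := by
      simpa [hF, hs, norm_radial] using hv
    rw [h, map_neg] at h'
    have e : R v + a - (2 : ℝ) • a = -(-R v + a) := by
      rw [two_smul]
      abel
    rw [e, map_neg, norm_neg]
    exact h'
  have ha0 : a = 0 := by
    obtain ⟨y, hy⟩ := exists_norm_eq Y (zero_le_one' ℝ)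
    have hk : ∀ k : ℕ, ‖DY.coord (DY.coord.symm y - (2 * k : ℝ) • a)‖ = 1 := by
      intro k
      induction k with
      | zero => simpa using hy
      | succ k ih =>
        have e : DY.coord.symm y - (2 * ((k + 1 : ℕ) : ℝ)) • a =
            DY.coord.symm y - (2 * k : ℝ) • a - (2 : ℝ) • a := by
          rw [sub_sub, ← add_smul]
          push_cast
          ring_nf
        rw [e]
        exact hrefl _ ih
    by_contra hne
    have hpos : 0 < ‖DY.coord a‖ := norm_pos_iff.2 (by simpa using hne)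
    obtain ⟨k, hk'⟩ := exists_nat_gt (1 / ‖DY.coord a‖)
    have h1 := hk k
    rw [map_sub, ContinuousLinearEquiv.apply_symm_apply, map_smul] at h1
    have h2 := norm_sub_norm_le ((2 * k : ℝ) • DY.coord a) y
    rw [norm_sub_rev, h1, norm_smul, Real.norm_of_nonneg (by positivity), hy] at h2
    rw [div_lt_iff₀ hpos] at hk'
    linarith
  let T : X ≃ₗ[ℝ] Y := DX.coord.symm.toLinearEquiv.trans (R.trans DY.coord.toLinearEquiv)
  have hT : ∀ c : sphere (0 : X) 1, T c = f c := by
    intro c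
    have h := hRa (DX.coord.symm (c : X)) (by simp [hs])
    rw [hFs, ha0, add_zero] at h
    simp [T, ← h]
  refine ⟨⟨T, fun x => ?_⟩, hT⟩
  by_cases hx : x = 0
  · simp [hx]
  have hc : ‖x‖⁻¹ • x ∈ sphere (0 : X) 1 := by simp [norm_smul, norm_ne_zero_iff.2 hx]
  have h := congrArg norm (hT ⟨_, hc⟩)
  rw [norm_eq_of_mem_sphere, map_smul, norm_smul, norm_inv, norm_norm] at h
  exact (inv_mul_eq_one₀ (norm_ne_zero_iff.2 hx)).1 h |>.symm

/-- Every finite dimensional real normed space has the Mazur-Ulam property. -/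
theorem tingley_finiteDimensional [FiniteDimensional ℝ X]
    (f : sphere (0 : X) 1 → sphere (0 : Y) 1) (hf : Isometry f) (hsurj : Function.Surjective f) :
    ∃ T : X ≃ₗᵢ[ℝ] Y, ∀ x : sphere (0 : X) 1, T x = f x := by
  rcases subsingleton_or_nontrivial X with hX | hX
  · have hY : Subsingleton Y := by
      refine not_nontrivial_iff_subsingleton.1 fun hY => ?_
      obtain ⟨y, hy⟩ := exists_norm_eq Y (zero_le_one' ℝ)
      obtain ⟨x, -⟩ := hsurj ⟨y, mem_sphere_zero_iff_norm.2 hy⟩
      have h1 := norm_eq_of_mem_sphere x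
      rw [Subsingleton.elim (x : X) 0, norm_zero] at h1
      exact zero_ne_one h1
    refine ⟨⟨LinearEquiv.ofSubsingleton X Y, fun x => ?_⟩, fun x => Subsingleton.elim _ _⟩
    rw [Subsingleton.elim x 0]; simp
  · exact tingley_nontrivial f hf hsurj

end Vale.Agent.P084
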