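import Vale.Agent.P084.MaxPrinciple
import Vale.Agent.P084.Main

/-!
Surjective isometries between unit spheres are linear when one space is uniformly convex.
-/

open Metric Set Filter
open scoped Topology

namespace Vale.Agent.P084

variable {X Y : Type*} [NormedAddCommGroup X] [NormedSpace ℝ X] [NormedAddCommGroup Y]
  [NormedSpace ℝ Y]

lemma norm_sub_smul_lip (y x : X) (hx : ‖x‖ = 1) (s u : ℝ) :
    ‖y - s • x‖ ≤ ‖y - u • x‖ + |s - u| := by
  refine (norm_sub_le_norm_sub_add_norm_sub y (u • x) (s • x)).trans ?_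
  rw [← sub_smul, norm_smul, hx, mul_one, Real.norm_eq_abs, abs_sub_comm u s]

lemma norm_sub_map_sub (f : sphere (0 : X) 1 → sphere (0 : Y) 1) (hf : Isometry f)
    (x y : sphere (0 : X) 1) : ‖(f x : Y) - (f y : Y)‖ = ‖(x : X) - (y : X)‖ := by
  rw [← dist_eq_norm, ← dist_eq_norm, ← Subtype.dist_eq, ← Subtype.dist_eq, hf.dist_eq]

/-- The deviation between the two distance profiles. -/
def dev (f : sphere (0 : X) 1 → sphere (0 : Y) 1) (x y : sphere (0 : X) 1) (s : ℝ) : ℝ :=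
  ‖(y : X) - s • (x : X)‖ - ‖(f y : Y) - s • (f x : Y)‖

lemma map_neg_of_uniformConvex [UniformConvexSpace Y]
    (f : sphere (0 : X) 1 → sphere (0 : Y) 1) (hf : Isometry f) (x : sphere (0 : X) 1) :
    f (-x) = -f x := by
  by_contra h
  have hx : ‖(x : X)‖ = 1 := norm_eq_of_mem_sphere x
  have hne : 0 < ‖(f (-x) : Y) + f x‖ := by
    rw [norm_pos_iff]
    intro h0
    exact h (Subtype.ext (eq_neg_of_add_eq_zero_left h0))
  obtain ⟨δ, hδ, hu⟩ := exists_forall_sphere_dist_add_le_two_sub Y hne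
  have h2 : ‖(f (-x) : Y) + -(f x : Y)‖ ≤ 2 - δ :=
    hu (norm_eq_of_mem_sphere _) (by rw [norm_neg]; exact norm_eq_of_mem_sphere _)
      (by rw [sub_neg_eq_add])
  rw [← sub_eq_add_neg, norm_sub_map_sub f hf] at h2
  have : ‖((-x : sphere (0 : X) 1) : X) - (x : X)‖ = 2 := by
    rw [show ((-x : sphere (0 : X) 1) : X) - (x : X) = (-2 : ℝ) • (x : X) by
      rw [neg_smul, two_smul]; simp; abel, norm_smul, hx]
    norm_num
  linarith

/-- A bounded sequence has a limit along an ultrafilter. -/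
lemma exists_tendsto_ultrafilter (U : Ultrafilter ℕ) {M : ℝ} {u : ℕ → ℝ} (h : ∀ n, |u n| ≤ M) :
    ∃ l, Tendsto u U (𝓝 l) := by
  obtain ⟨l, -, hl⟩ := (isCompact_Icc (a := -M) (b := M)).ultrafilter_le_nhds (U.map u) (by
    rw [le_principal_iff]
    exact Filter.mem_map.2 (Filter.Eventually.of_forall fun n => abs_le.1 (h n)))
  exact ⟨l, hl⟩

lemma tendsto_comp_lip {l : Filter ℕ} {G : ℕ → ℝ → ℝ} {g : ℝ → ℝ}
    (hl : ∀ n s u, G n s ≤ G n u + |s - u|) (hg : ∀ s, Tendsto (fun n => G n s) l (𝓝 (g s)))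
    {s : ℕ → ℝ} {s0 : ℝ} (hs : Tendsto s l (𝓝 s0)) :
    Tendsto (fun n => G n (s n)) l (𝓝 (g s0)) := by
  refine (hg s0).congr_dist (squeeze_zero (fun n => dist_nonneg) (fun n => ?_)
    ((tendsto_iff_dist_tendsto_zero.1 hs)))
  rw [Real.dist_eq, Real.dist_eq, abs_le]
  constructor <;> linarith [hl n (s n) s0, hl n s0 (s n), abs_sub_comm (s n) s0]

lemma exists_point_beyond (x y : sphere (0 : X) 1) {t : ℝ} (ht0 : 0 ≤ t) (ht1 : t < 1) :
    ∃ s : ℝ, 0 < s ∧ ‖t • (x : X) + s • (t • (x : X) - y)‖ = 1 ∧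
      s * ‖(y : X) - t • (x : X)‖ ≤ 1 + t := by
  set p := t • (x : X) with hp
  have hpn : ‖p‖ = t := by
    rw [hp, norm_smul, norm_eq_of_mem_sphere x, mul_one, Real.norm_eq_abs, abs_of_nonneg ht0]
  have hr : 1 - t ≤ ‖(y : X) - p‖ := by
    have := norm_sub_norm_le (y : X) p
    rw [norm_eq_of_mem_sphere y, hpn] at this
    exact this
  have hr0 : 0 < ‖(y : X) - p‖ := by linarith
  set S := (1 + t) / ‖(y : X) - p‖ with hS
  have hS0 : 0 ≤ S := div_nonneg (by linarith) hr0.le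
  have hSr : S * ‖(y : X) - p‖ = 1 + t := div_mul_cancel₀ _ hr0.ne'
  have hend : 1 ≤ ‖p + S • (p - y)‖ := by
    have h1 := norm_sub_le (p + S • (p - (y : X))) p
    rw [add_sub_cancel_left, norm_smul, Real.norm_eq_abs, abs_of_nonneg hS0, norm_sub_rev, hSr,
      hpn] at h1
    linarith
  have hc : ContinuousOn (fun s : ℝ => ‖p + s • (p - (y : X))‖) (Icc 0 S) :=
    (Continuous.continuousOn (by fun_prop))
  obtain ⟨s, hs, hs'⟩ := intermediate_value_Icc hS0 hc (show (1 : ℝ) ∈ Icc _ _ from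
    ⟨by simp [hpn, ht1.le], hend⟩)
  refine ⟨s, ?_, hs', ?_⟩
  · rcases lt_or_eq_of_le hs.1 with h | h
    · exact h
    · simp [← h, hpn] at hs'
      linarith
  · calc s * ‖(y : X) - p‖ ≤ S * ‖(y : X) - p‖ := mul_le_mul_of_nonneg_right hs.2 hr0.le
      _ = 1 + t := hSr

/-- If two vectors nearly realise equality in the triangle inequality, their directions have
sum of norm nearly two. -/
lemma norm_add_dir_ge {u v : Y} (hu : ‖u‖ = 1) (hv : ‖v‖ = 1) {a b k : ℝ} (hk : 0 < k)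
    (ha : k ≤ a) (hb : k ≤ b) :
    2 - (a + b - ‖a • u + b • v‖) / k ≤ ‖u + v‖ := by
  have hdef : 0 ≤ a + b - ‖a • u + b • v‖ := by
    have := norm_add_le (a • u) (b • v)
    rw [norm_smul, norm_smul, hu, hv, Real.norm_eq_abs, Real.norm_eq_abs,
      abs_of_pos (lt_of_lt_of_le hk ha), abs_of_pos (lt_of_lt_of_le hk hb)] at this
    linarith
  rcases le_total a b with h | h
  · have ha0 : 0 < a := lt_of_lt_of_le hk ha
    have h1 : ‖a • u + b • v‖ ≤ a * ‖u + v‖ + (b - a) := by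
      rw [show a • u + b • v = a • (u + v) + (b - a) • v by
        rw [smul_add, sub_smul]; abel]
      refine (norm_add_le _ _).trans ?_
      rw [norm_smul, norm_smul, hv, Real.norm_eq_abs, Real.norm_eq_abs, abs_of_pos ha0,
        abs_of_nonneg (sub_nonneg.2 h), mul_one]
    have h2 := div_le_div_of_nonneg_left hdef hk ha
    have h3 : (a + b - ‖a • u + b • v‖) / a * a = a + b - ‖a • u + b • v‖ :=
      div_mul_cancel₀ _ ha0.ne'
    refine le_trans (by linarith) (?_ : 2 - (a + b - ‖a • u + b • v‖) / a ≤ ‖u + v‖)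
    refine le_of_mul_le_mul_right ?_ ha0
    rw [sub_mul, h3]
    linarith
  · have hb0 : 0 < b := lt_of_lt_of_le hk hb
    have h1 : ‖a • u + b • v‖ ≤ b * ‖u + v‖ + (a - b) := by
      rw [show a • u + b • v = b • (u + v) + (a - b) • u by
        rw [smul_add, sub_smul]; abel]
      refine (norm_add_le _ _).trans ?_
      rw [norm_smul, norm_smul, hu, Real.norm_eq_abs, Real.norm_eq_abs, abs_of_pos hb0,
        abs_of_nonneg (sub_nonneg.2 h), mul_one]
    have h2 := div_le_div_of_nonneg_left hdef hk hb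
    have h3 : (a + b - ‖a • u + b • v‖) / b * b = a + b - ‖a • u + b • v‖ :=
      div_mul_cancel₀ _ hb0.ne'
    refine le_trans (by linarith) (?_ : 2 - (a + b - ‖a • u + b • v‖) / b ≤ ‖u + v‖)
    refine le_of_mul_le_mul_right ?_ hb0
    rw [sub_mul, h3]
    linarith

lemma dev_one (f : sphere (0 : X) 1 → sphere (0 : Y) 1) (hf : Isometry f)
    (x y : sphere (0 : X) 1) : dev f x y 1 = 0 := by
  simp [dev, norm_sub_map_sub f hf]

lemma dev_neg (f : sphere (0 : X) 1 → sphere (0 : Y) 1) (hn : ∀ x, f (-x) = -f x)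
    (x y : sphere (0 : X) 1) (s : ℝ) : dev f (-x) y s = dev f x y (-s) := by
  simp [dev, hn]

lemma dev_le_dist (f : sphere (0 : X) 1 → sphere (0 : Y) 1) (x y : sphere (0 : X) 1) (s u : ℝ) :
    dev f x y s ≤ dev f x y u + 2 * |s - u| := by
  have h1 := norm_sub_smul_lip (y : X) x (norm_eq_of_mem_sphere x) s u
  have h2 := norm_sub_smul_lip (f y : Y) (f x) (norm_eq_of_mem_sphere _) u s
  rw [abs_sub_comm u s] at h2
  simp only [dev]
  linarith

/-- The deviation cannot approach a positive supremum. -/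
theorem no_positive_sup [UniformConvexSpace Y] (f : sphere (0 : X) 1 → sphere (0 : Y) 1)
    (hf : Isometry f) (hn : ∀ x, f (-x) = -f x) {D : ℝ} (hD : 0 < D)
    (hbd : ∀ x y s, -1 ≤ s → s ≤ 1 → |dev f x y s| ≤ D)
    (hnear : ∀ ε, 0 < ε → ∃ x y t, 0 ≤ t ∧ t ≤ 1 ∧ D - ε < dev f x y t) : False := by
  set ε : ℕ → ℝ := fun n => D / 4 * (1 / ((n : ℝ) + 1)) with hε
  have hεpos : ∀ n, 0 < ε n := fun n => by positivity
  have hεle : ∀ n, ε n ≤ D / 4 := fun n => by
    have : 1 / ((n : ℝ) + 1) ≤ 1 := by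
      rw [div_le_one (by positivity)]
      linarith [(Nat.cast_nonneg n : (0 : ℝ) ≤ n)]
    exact mul_le_of_le_one_right (by linarith) this
  have hε0 : Tendsto ε atTop (𝓝 0) := by
    simpa [hε] using (tendsto_one_div_add_atTop_nhds_zero_nat).const_mul (D / 4)
  choose x y t ht0 ht1 htD using fun n => hnear (ε n) (hεpos n)
  have hdev0 : ∀ n, dev f (x n) (y n) 0 = 0 := fun n => by simp [dev]
  have hk0 : ∀ n, 3 * D / 8 ≤ 1 - t n ∧ 3 * D / 8 ≤ t n := fun n => by
    have h1 := dev_le_dist f (x n) (y n) (t n) 1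
    have h2 := dev_le_dist f (x n) (y n) (t n) 0
    rw [dev_one f hf, abs_sub_comm, abs_of_nonneg (sub_nonneg.2 (ht1 n))] at h1
    rw [hdev0, sub_zero, abs_of_nonneg (ht0 n)] at h2
    constructor <;> linarith [htD n, hεle n]
  have ht1' : ∀ n, t n < 1 := fun n => by linarith [(hk0 n).1]
  choose s hs0 hsz hsr using fun n => exists_point_beyond (x n) (y n) (ht0 n) (ht1' n)
  let z : ℕ → sphere (0 : X) 1 := fun n =>
    ⟨t n • (x n : X) + s n • (t n • (x n : X) - y n), mem_sphere_zero_iff_norm.2 (hsz n)⟩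
  set p : ℕ → X := fun n => t n • (x n : X) with hp
  set q : ℕ → Y := fun n => t n • (f (x n) : Y) with hq
  set r : ℕ → ℝ := fun n => ‖(y n : X) - p n‖ with hr
  set r' : ℕ → ℝ := fun n => s n * r n with hr'
  set a : ℕ → ℝ := fun n => ‖(f (y n) : Y) - q n‖ with ha
  set b : ℕ → ℝ := fun n => ‖(f (z n) : Y) - q n‖ with hb
  have nx : ∀ n, ‖(x n : X)‖ = 1 := fun n => norm_eq_of_mem_sphere _
  have nfx : ∀ n, ‖(f (x n) : Y)‖ = 1 := fun n => norm_eq_of_mem_sphere _
  have hpn : ∀ n, ‖p n‖ = t n := fun n => by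
    rw [hp, norm_smul, nx, mul_one, Real.norm_eq_abs, abs_of_nonneg (ht0 n)]
  have hqn : ∀ n, ‖q n‖ = t n := fun n => by
    rw [hq, norm_smul, nfx, mul_one, Real.norm_eq_abs, abs_of_nonneg (ht0 n)]
  have hk_le : ∀ n, 1 - t n ≤ r n ∧ r n ≤ 1 + t n ∧ 1 - t n ≤ a n ∧ a n ≤ 1 + t n ∧
      1 - t n ≤ b n ∧ b n ≤ 1 + t n := fun n => by
    have e1 : ‖(y n : X)‖ = 1 := norm_eq_of_mem_sphere _
    have e2 : ‖(f (y n) : Y)‖ = 1 := norm_eq_of_mem_sphere _
    have e3 : ‖(f (z n) : Y)‖ = 1 := norm_eq_of_mem_sphere _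
    have i1 := norm_sub_norm_le (y n : X) (p n)
    have i2 := norm_sub_le (y n : X) (p n)
    have i3 := norm_sub_norm_le (f (y n) : Y) (q n)
    have i4 := norm_sub_le (f (y n) : Y) (q n)
    have i5 := norm_sub_norm_le (f (z n) : Y) (q n)
    have i6 := norm_sub_le (f (z n) : Y) (q n)
    rw [e1, hpn] at i1 i2
    rw [e2, hqn] at i3 i4
    rw [e3, hqn] at i5 i6
    exact ⟨i1, i2, i3, i4, i5, i6⟩
  have hzp : ∀ n, (z n : X) - p n = s n • (p n - (y n : X)) := fun n => by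
    simp [z, hp]
  have hr'eq : ∀ n, ‖(z n : X) - p n‖ = r' n := fun n => by
    rw [hzp, norm_smul, Real.norm_eq_abs, abs_of_pos (hs0 n), norm_sub_rev]
  have hr'le : ∀ n, 1 - t n ≤ r' n ∧ r' n ≤ 1 + t n := fun n => by
    refine ⟨?_, hsr n⟩
    have i1 := norm_sub_norm_le (z n : X) (p n)
    rw [norm_eq_of_mem_sphere (z n), hpn, hr'eq] at i1
    exact i1
  have hyz : ∀ n, ‖(f (y n) : Y) - f (z n)‖ = r n + r' n := fun n => by
    rw [norm_sub_map_sub f hf,
      show (y n : X) - (z n : X) = (1 + s n) • ((y n : X) - p n) by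
        simp only [z, hp, add_smul, one_smul, smul_sub]; abel,
      norm_smul, Real.norm_eq_abs, abs_of_pos (by linarith [hs0 n]), hr', hr]
    ring
  have hab : ∀ n, r n - D ≤ a n ∧ a n ≤ r n - D + ε n ∧ r' n + D - ε n ≤ b n ∧
      b n ≤ r' n + D := fun n => by
    have h1 := abs_le.1 (hbd (x n) (y n) (t n) (by linarith [ht0 n]) (ht1 n))
    have h2 := abs_le.1 (hbd (x n) (z n) (t n) (by linarith [ht0 n]) (ht1 n))
    have h3 := norm_sub_le_norm_sub_add_norm_sub (f (y n) : Y) (q n) (f (z n))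
    rw [hyz, norm_sub_rev (q n)] at h3
    have h4 := htD n
    simp only [dev] at h1 h2 h4
    rw [show ‖(z n : X) - t n • (x n : X)‖ = r' n from hr'eq n] at h2
    simp only [hr, ha, hb, hp, hq] at h3 ⊢
    refine ⟨?_, ?_, ?_, ?_⟩ <;> linarith
  -- directions in the target
  set u : ℕ → Y := fun n => (a n)⁻¹ • ((f (y n) : Y) - q n) with hu
  set v : ℕ → Y := fun n => (b n)⁻¹ • (q n - (f (z n) : Y)) with hv
  have ha0 : ∀ n, 0 < a n := fun n => by linarith [(hk_le n).2.2.1, ht1' n]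
  have hb0 : ∀ n, 0 < b n := fun n => by linarith [(hk_le n).2.2.2.2.1, ht1' n]
  have nu : ∀ n, ‖u n‖ = 1 := fun n => by
    rw [hu, norm_smul, norm_inv, Real.norm_eq_abs, abs_of_pos (ha0 n)]
    exact inv_mul_cancel₀ (ha0 n).ne'
  have nv : ∀ n, ‖v n‖ = 1 := fun n => by
    rw [hv, norm_smul, norm_inv, Real.norm_eq_abs, abs_of_pos (hb0 n), norm_sub_rev]
    exact inv_mul_cancel₀ (hb0 n).ne'
  have hau : ∀ n, a n • u n = (f (y n) : Y) - q n := fun n => by
    rw [hu, smul_inv_smul₀ (ha0 n).ne']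
  have hbv : ∀ n, b n • v n = q n - (f (z n) : Y) := fun n => by
    rw [hv, smul_inv_smul₀ (hb0 n).ne']
  have hdir : Tendsto (fun n => ‖u n - v n‖) atTop (𝓝 0) := by
    rw [Metric.tendsto_atTop]
    intro η hη
    obtain ⟨δ, hδ, huc⟩ := exists_forall_sphere_dist_add_le_two_sub Y hη
    obtain ⟨N, hN⟩ := Metric.tendsto_atTop.1 hε0 (δ * (3 * D / 8)) (by positivity)
    refine ⟨N, fun n hn => ?_⟩
    rw [Real.dist_eq, sub_zero, abs_of_nonneg (norm_nonneg _)]
    by_contra hcon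
    push Not at hcon
    have h1 := huc (nu n) (nv n) hcon
    have h2 := norm_add_dir_ge (nu n) (nv n) (show 0 < 3 * D / 8 by positivity)
      (a := a n) (b := b n) (by linarith [(hk0 n).1, (hk_le n).2.2.1])
      (by linarith [(hk0 n).1, (hk_le n).2.2.2.2.1])
    rw [hau, hbv, sub_add_sub_cancel, hyz] at h2
    have h3 := hN n hn
    rw [Real.dist_eq, sub_zero, abs_of_pos (hεpos n)] at h3
    have h4 : (a n + b n - (r n + r' n)) / (3 * D / 8) < δ := by
      rw [div_lt_iff₀ (by positivity)]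
      linarith [hab n]
    linarith
  -- profiles
  set Ay : ℕ → ℝ → ℝ := fun n σ => ‖(y n : X) - σ • (x n : X)‖ with hAy
  set Az : ℕ → ℝ → ℝ := fun n σ => ‖(z n : X) - σ • (x n : X)‖ with hAz
  set By : ℕ → ℝ → ℝ := fun n σ => ‖(f (y n) : Y) - σ • (f (x n) : Y)‖ with hBy
  set Bz : ℕ → ℝ → ℝ := fun n σ => ‖(f (z n) : Y) - σ • (f (x n) : Y)‖ with hBz
  have idA : ∀ n τ, r n * Az n (t n - τ * r' n) = r' n * Ay n (t n + τ * r n) := fun n τ => by
    have e : (z n : X) - (t n - τ * r' n) • (x n : X) =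
        (-(s n)) • ((y n : X) - (t n + τ * r n) • (x n : X)) := by
      simp only [z, hr']
      module
    simp only [hAz, hAy]
    rw [e, norm_smul, norm_neg, Real.norm_eq_abs, abs_of_pos (hs0 n), hr']
    ring
  have idB : ∀ n τ, |a n * Bz n (t n - τ * b n) - b n * By n (t n + τ * a n)| ≤
      4 * ‖u n - v n‖ := fun n τ => by
    have e1 : (f (z n) : Y) - (t n - τ * b n) • (f (x n) : Y) =
        (-(b n)) • (v n - τ • (f (x n) : Y)) := by
      rw [neg_smul, smul_sub, hbv, smul_smul, hq, sub_smul, mul_comm (b n) τ]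
      abel
    have e2 : (f (y n) : Y) - (t n + τ * a n) • (f (x n) : Y) =
        a n • (u n - τ • (f (x n) : Y)) := by
      rw [smul_sub, hau, smul_smul, hq, add_smul, mul_comm (a n) τ]
      abel
    simp only [hBz, hBy]
    rw [e1, e2, norm_smul, norm_smul, norm_neg, Real.norm_eq_abs, Real.norm_eq_abs,
      abs_of_pos (ha0 n), abs_of_pos (hb0 n)]
    have h1 : |‖v n - τ • (f (x n) : Y)‖ - ‖u n - τ • (f (x n) : Y)‖| ≤ ‖v n - u n‖ := by
      have := abs_norm_sub_norm_le (v n - τ • (f (x n) : Y)) (u n - τ • (f (x n) : Y))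
      rwa [sub_sub_sub_cancel_right] at this
    rw [norm_sub_rev (v n) (u n)] at h1
    have h2 : a n * b n ≤ 4 := by nlinarith [hk_le n, ht1' n, ha0 n, hb0 n]
    rw [show a n * (b n * ‖v n - τ • (f (x n) : Y)‖) - b n * (a n * ‖u n - τ • (f (x n) : Y)‖)
      = a n * b n * (‖v n - τ • (f (x n) : Y)‖ - ‖u n - τ • (f (x n) : Y)‖) by ring, abs_mul,
      abs_of_pos (mul_pos (ha0 n) (hb0 n))]
    exact mul_le_mul h2 h1 (abs_nonneg _) (by norm_num)
  have hconv : ∀ n, b n * (r n + r' n) ≤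
      r n * Bz n (t n - (1 - t n) * r' n / r n) + r' n * Bz n 1 := fun n => by
    have hr0 : 0 < r n := by linarith [(hk_le n).1, ht1' n]
    have hr'0 : 0 < r' n := by linarith [(hr'le n).1, ht1' n]
    set σ := t n - (1 - t n) * r' n / r n with hσ
    have hco : r n * σ + r' n = t n * (r n + r' n) := by
      rw [hσ]; field_simp; ring
    have e : (r n + r' n) • ((f (z n) : Y) - q n) =
        r n • ((f (z n) : Y) - σ • (f (x n) : Y)) +
          r' n • ((f (z n) : Y) - (1 : ℝ) • (f (x n) : Y)) := by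
      rw [hq, smul_sub, smul_smul, mul_comm (r n + r' n) (t n), ← hco]
      simp only [add_smul, smul_sub, smul_smul, mul_one]
      abel
    have h := norm_add_le (r n • ((f (z n) : Y) - σ • (f (x n) : Y)))
      (r' n • ((f (z n) : Y) - (1 : ℝ) • (f (x n) : Y)))
    rw [← e, norm_smul, norm_smul, norm_smul, Real.norm_eq_abs, Real.norm_eq_abs,
      Real.norm_eq_abs, abs_of_pos hr0, abs_of_pos hr'0, abs_of_pos (add_pos hr0 hr'0)] at h
    rw [mul_comm]
    exact h
  -- limits along an ultrafilter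
  set U : Ultrafilter ℕ := hyperfilter ℕ with hU
  have hUle : (U : Filter ℕ) ≤ atTop := Nat.hyperfilter_le_atTop
  have bnd : ∀ (g : ℝ) (w : ℝ), 0 ≤ g → g ≤ w → |g| ≤ w := fun g w h1 h2 => by
    rwa [abs_of_nonneg h1]
  obtain ⟨T, hT⟩ := exists_tendsto_ultrafilter U (u := t) (M := 1) fun n => bnd _ _ (ht0 n) (ht1 n)
  obtain ⟨R, hR⟩ := exists_tendsto_ultrafilter U (u := r) (M := 2) fun n =>
    bnd _ _ (norm_nonneg _) (by linarith [(hk_le n).2.1, ht1 n])
  obtain ⟨R', hR'⟩ := exists_tendsto_ultrafilter U (u := r') (M := 2) fun n =>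
    bnd _ _ (by linarith [(hr'le n).1, ht1 n]) (by linarith [(hr'le n).2, ht1 n])
  have hεU : Tendsto ε U (𝓝 0) := hε0.mono_left hUle
  have hdU : Tendsto (fun n => ‖u n - v n‖) U (𝓝 0) := hdir.mono_left hUle
  have hAlim : Tendsto a U (𝓝 (R - D)) := by
    refine tendsto_of_tendsto_of_tendsto_of_le_of_le (hR.sub_const D) ?_
      (fun n => (hab n).1) (fun n => (hab n).2.1)
    simpa using (hR.sub_const D).add hεU
  have hBlim : Tendsto b U (𝓝 (R' + D)) := by
    refine tendsto_of_tendsto_of_tendsto_of_le_of_le ?_ (hR'.add_const D)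
      (fun n => (hab n).2.2.1) (fun n => (hab n).2.2.2)
    simpa using (hR'.add_const D).sub hεU
  have prof : ∀ (G : ℕ → ℝ → ℝ), (∀ n σ, 0 ≤ G n σ ∧ G n σ ≤ 1 + |σ|) →
      ∀ σ, ∃ l, Tendsto (fun n => G n σ) U (𝓝 l) := fun G hG σ =>
    exists_tendsto_ultrafilter U fun n => bnd _ _ (hG n σ).1 (hG n σ).2
  have rangeX : ∀ (w : sphere (0 : X) 1) (n : ℕ) (σ : ℝ), 0 ≤ ‖(w : X) - σ • (x n : X)‖ ∧
      ‖(w : X) - σ • (x n : X)‖ ≤ 1 + |σ| := fun w n σ => by
    refine ⟨norm_nonneg _, (norm_sub_le _ _).trans ?_⟩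
    rw [norm_smul, nx, norm_eq_of_mem_sphere, mul_one, Real.norm_eq_abs]
  have rangeY : ∀ (w : sphere (0 : Y) 1) (n : ℕ) (σ : ℝ), 0 ≤ ‖(w : Y) - σ • (f (x n) : Y)‖ ∧
      ‖(w : Y) - σ • (f (x n) : Y)‖ ≤ 1 + |σ| := fun w n σ => by
    refine ⟨norm_nonneg _, (norm_sub_le _ _).trans ?_⟩
    rw [norm_smul, nfx, norm_eq_of_mem_sphere, mul_one, Real.norm_eq_abs]
  choose AY hAY using prof Ay fun n σ => rangeX (y n) n σ
  choose AZ hAZ using prof Az fun n σ => rangeX (z n) n σ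
  choose BY hBY using prof By fun n σ => rangeY (f (y n)) n σ
  choose BZ hBZ using prof Bz fun n σ => rangeY (f (z n)) n σ
  have lAy : ∀ n σ τ, Ay n σ ≤ Ay n τ + |σ - τ| := fun n => norm_sub_smul_lip _ _ (nx n)
  have lAz : ∀ n σ τ, Az n σ ≤ Az n τ + |σ - τ| := fun n => norm_sub_smul_lip _ _ (nx n)
  have lBy : ∀ n σ τ, By n σ ≤ By n τ + |σ - τ| := fun n => norm_sub_smul_lip _ _ (nfx n)
  have lBz : ∀ n σ τ, Bz n σ ≤ Bz n τ + |σ - τ| := fun n => norm_sub_smul_lip _ _ (nfx n)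
  have lipLim : ∀ (G : ℕ → ℝ → ℝ) (g : ℝ → ℝ), (∀ n σ τ, G n σ ≤ G n τ + |σ - τ|) →
      (∀ σ, Tendsto (fun n => G n σ) U (𝓝 (g σ))) → ∀ σ τ, g σ ≤ g τ + |σ - τ| :=
    fun G g hG hg σ τ => le_of_tendsto_of_tendsto' (hg σ) ((hg τ).add_const _) fun n => hG n σ τ
  have heq : ∀ {G H : ℕ → ℝ} {g h : ℝ}, Tendsto G U (𝓝 g) → Tendsto H U (𝓝 h) →
      (∀ n, G n = H n) → g = h := fun hG hH h =>
    tendsto_nhds_unique hG (hH.congr fun n => (h n).symm)
  have habs : ∀ {G H : ℕ → ℝ} {g h : ℝ}, Tendsto G U (𝓝 g) → Tendsto H U (𝓝 h) →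
      (∀ n, |G n - H n| ≤ D) → |g - h| ≤ D := fun hG hH h =>
    le_of_tendsto' (hG.sub hH).abs h
  have hR0 : 1 - T ≤ R := le_of_tendsto_of_tendsto' (hT.const_sub 1) hR fun n => (hk_le n).1
  have hT38 : 3 * D / 8 ≤ 1 - T := ge_of_tendsto' (hT.const_sub 1) fun n => (hk0 n).1
  have P : Profile AY AZ BY BZ T R R' D :=
    { ht0 := by linarith [ge_of_tendsto' hT fun n => (hk0 n).2]
      ht1 := by linarith
      hD := hD
      hr := hR0
      hr' := le_of_tendsto_of_tendsto' (hT.const_sub 1) hR' fun n => (hr'le n).1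
      hrt := le_of_tendsto_of_tendsto' hR (hT.const_add 1) fun n => (hk_le n).2.1
      hr't := le_of_tendsto_of_tendsto' hR' (hT.const_add 1) fun n => (hr'le n).2
      ha := le_of_tendsto_of_tendsto' (hT.const_sub 1) hAlim fun n => (hk_le n).2.2.1
      lAy := lipLim Ay AY lAy hAY
      lAz := lipLim Az AZ lAz hAZ
      lBy := lipLim By BY lBy hBY
      lBz := lipLim Bz BZ lBz hBZ
      hy1 := heq (hAY 1) (hBY 1) fun n => by simp [hAy, hBy, norm_sub_map_sub f hf]
      hz1 := heq (hAZ 1) (hBZ 1) fun n => by simp [hAz, hBz, norm_sub_map_sub f hf]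
      hAy0 := heq (hAY 0) tendsto_const_nhds fun n => by simp [hAy]
      hBy0 := heq (hBY 0) tendsto_const_nhds fun n => by simp [hBy]
      hAz0 := heq (hAZ 0) tendsto_const_nhds fun n => by simp [hAz]
      hBz0 := heq (hBZ 0) tendsto_const_nhds fun n => by simp [hBz]
      hym := heq (hAY (-1)) (hBY (-1)) fun n => by
        have := dev_neg f hn (x n) (y n) 1
        rw [dev_one f hf] at this
        simp only [dev] at this
        simp only [hAy, hBy]
        linarith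
      hzm := heq (hAZ (-1)) (hBZ (-1)) fun n => by
        have := dev_neg f hn (x n) (z n) 1
        rw [dev_one f hf] at this
        simp only [dev] at this
        simp only [hAz, hBz]
        linarith
      hyD := fun σ h1 h2 => habs (hAY σ) (hBY σ) fun n => hbd (x n) (y n) σ h1 h2
      hzD := fun σ h1 h2 => habs (hAZ σ) (hBZ σ) fun n => hbd (x n) (z n) σ h1 h2
      hA := fun τ =>
        heq (hR.mul (tendsto_comp_lip lAz hAZ (hT.sub (hR'.const_mul τ))))
          (hR'.mul (tendsto_comp_lip lAy hAY (hT.add (hR.const_mul τ)))) fun n => idA n τ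
      hB := fun τ => by
        have h1 := hAlim.mul (tendsto_comp_lip lBz hBZ (hT.sub (hBlim.const_mul τ)))
        have h2 := hBlim.mul (tendsto_comp_lip lBy hBY (hT.add (hAlim.const_mul τ)))
        have h3 := squeeze_zero_norm (fun n => (Real.norm_eq_abs _).trans_le (idB n τ))
          (by simpa using hdU.const_mul 4)
        exact sub_eq_zero.1 (tendsto_nhds_unique (h1.sub h2) h3)
      hconv := le_of_tendsto_of_tendsto' (hBlim.mul (hR.add hR'))
        ((hR.mul (tendsto_comp_lip lBz hBZ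
          (hT.sub (((hT.const_sub 1).mul hR').div hR (by linarith))))).add
          (hR'.mul (hBZ 1))) hconv }
  exact P.false

lemma abs_dev_le (f : sphere (0 : X) 1 → sphere (0 : Y) 1) (x y : sphere (0 : X) 1) {s : ℝ}
    (h0 : -1 ≤ s) (h1 : s ≤ 1) : |dev f x y s| ≤ 2 := by
  have d1 := dev_le_dist f x y s 0
  have d2 := dev_le_dist f x y 0 s
  have h : |s| ≤ 1 := abs_le.2 ⟨h0, h1⟩
  have e : dev f x y 0 = 0 := by simp [dev]
  rw [sub_zero] at d1
  rw [zero_sub, abs_neg] at d2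
  exact abs_le.2 ⟨by linarith, by linarith⟩

/-- Uniform convexity passes through a surjective isometry of unit spheres. -/
theorem uniformConvexSpace_of_sphere_isometry [UniformConvexSpace Y]
    (f : sphere (0 : X) 1 → sphere (0 : Y) 1) (hf : Isometry f) : UniformConvexSpace X := by
  refine ⟨fun ε hε => ?_⟩
  obtain ⟨δ, hδ, h⟩ := exists_forall_sphere_dist_add_le_two_sub Y hε
  refine ⟨δ, hδ, fun x hx y hy hxy => ?_⟩
  set x' : sphere (0 : X) 1 := ⟨x, mem_sphere_zero_iff_norm.2 hx⟩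
  set y' : sphere (0 : X) 1 := ⟨y, mem_sphere_zero_iff_norm.2 hy⟩
  have e1 : ‖(f x' : Y) + f y'‖ = ‖x + y‖ := by
    have e := norm_sub_map_sub f hf x' (-y')
    rw [map_neg_of_uniformConvex f hf] at e
    simpa [sub_neg_eq_add, x', y'] using e
  rw [← e1]
  exact h (norm_eq_of_mem_sphere _) (norm_eq_of_mem_sphere _)
    (by rw [norm_sub_map_sub f hf]; exact hxy)

/-- The distance profiles agree. -/
theorem dev_eq_zero [UniformConvexSpace Y] (f : sphere (0 : X) 1 → sphere (0 : Y) 1)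
    (hf : Isometry f) (hsurj : Function.Surjective f) (x y : sphere (0 : X) 1) {s : ℝ}
    (h0 : -1 ≤ s) (h1 : s ≤ 1) : dev f x y s = 0 := by
  have : UniformConvexSpace X := uniformConvexSpace_of_sphere_isometry f hf
  have hn := map_neg_of_uniformConvex f hf
  let g : sphere (0 : Y) 1 → sphere (0 : X) 1 := Function.surjInv hsurj
  have hfg : ∀ w, f (g w) = w := Function.surjInv_eq hsurj
  have hgf : ∀ w, g (f w) = w := fun w => hf.injective (hfg _)
  have hg : Isometry g := Isometry.of_dist_eq fun w w' => by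
    rw [← hf.dist_eq (g w) (g w'), hfg, hfg]
  have hgn := map_neg_of_uniformConvex g hg
  have hflip : ∀ (x y : sphere (0 : X) 1) σ, dev g (f x) (f y) σ = -dev f x y σ := fun x y σ => by
    simp only [dev, hgf]
    ring
  set S : Set ℝ := {d | ∃ x y σ, -1 ≤ σ ∧ σ ≤ 1 ∧ d = |dev f x y σ|} with hS
  have hSne : S.Nonempty := ⟨_, x, y, s, h0, h1, rfl⟩
  have hSb : BddAbove S := ⟨2, by
    rintro d ⟨x, y, σ, a, b, rfl⟩
    exact abs_dev_le f x y a b⟩
  have hle : ∀ x y σ, -1 ≤ σ → σ ≤ 1 → |dev f x y σ| ≤ sSup S := fun x y σ a b =>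
    le_csSup hSb ⟨x, y, σ, a, b, rfl⟩
  by_contra hne
  have hD : 0 < sSup S := lt_of_lt_of_le (abs_pos.2 hne) (hle x y s h0 h1)
  have hgbd : ∀ u v σ, -1 ≤ σ → σ ≤ 1 → |dev g u v σ| ≤ sSup S := fun u v σ a b => by
    rw [← hfg u, ← hfg v, hflip, abs_neg]
    exact hle _ _ σ a b
  have hnear : ∀ ε, 0 < ε → ∃ x y t, 0 ≤ t ∧ t ≤ 1 ∧ sSup S - ε < |dev f x y t| := by
    intro ε hε
    obtain ⟨d, ⟨x, y, σ, a, b, rfl⟩, hd⟩ := exists_lt_of_lt_csSup hSne (sub_lt_self (sSup S) hε)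
    rcases le_total 0 σ with hσ | hσ
    · exact ⟨x, y, σ, hσ, b, hd⟩
    · refine ⟨-x, y, -σ, by linarith, by linarith, ?_⟩
      rwa [dev_neg f hn, neg_neg]
  by_cases hpos : ∀ ε, 0 < ε → ∃ x y t, 0 ≤ t ∧ t ≤ 1 ∧ sSup S - ε < dev f x y t
  · exact no_positive_sup f hf hn hD hle hpos
  · push Not at hpos
    obtain ⟨ε₀, hε₀, hno⟩ := hpos
    refine no_positive_sup g hg hgn hD hgbd fun ε hε => ?_
    obtain ⟨x, y, t, a, b, h⟩ := hnear (min ε ε₀) (lt_min hε hε₀)
    refine ⟨f x, f y, t, a, b, ?_⟩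
    rw [hflip]
    rcases le_total 0 (dev f x y t) with hsg | hsg
    · rw [abs_of_nonneg hsg] at h
      linarith [hno x y t a b, min_le_right ε ε₀]
    · rw [abs_of_nonpos hsg] at h
      linarith [min_le_left ε ε₀]

lemma radial_surjective (f : sphere (0 : X) 1 → sphere (0 : Y) 1) (hsurj : Function.Surjective f) :
    Function.Surjective (radial f) := by
  intro w
  by_cases hw : w = 0
  · exact ⟨0, by rw [radial_zero, hw]⟩
  have hn : 0 < ‖w‖ := norm_pos_iff.2 hw
  obtain ⟨x, hx⟩ := hsurj ⟨‖w‖⁻¹ • w, by simp [norm_smul, hn.ne']⟩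
  refine ⟨‖w‖ • (x : X), ?_⟩
  have hx1 : ‖(x : X)‖ = 1 := norm_eq_of_mem_sphere x
  have hnx : ‖‖w‖ • (x : X)‖ = ‖w‖ := by rw [norm_smul, hx1, mul_one, norm_norm]
  have hne : ‖w‖ • (x : X) ≠ 0 := by
    rw [← norm_pos_iff, hnx]; exact hn
  rw [radial, dif_neg hne]
  simp only [hnx, inv_smul_smul₀ hn.ne', Subtype.coe_eta, hx, smul_inv_smul₀ hn.ne']

/-- The radial extension preserves distances once the distance profiles agree. -/
lemma norm_radial_sub_of_dev (f : sphere (0 : X) 1 → sphere (0 : Y) 1)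
    (h : ∀ x y s, 0 ≤ s → s ≤ 1 → dev f x y s = 0) (a b : X) :
    ‖radial f a - radial f b‖ = ‖a - b‖ := by
  wlog hle : ‖b‖ ≤ ‖a‖ generalizing a b
  · rw [norm_sub_rev, this b a (le_of_not_ge hle), norm_sub_rev]
  by_cases ha : a = 0
  · have hb : b = 0 := norm_le_zero_iff.1 (by simpa [ha] using hle)
    simp [ha, hb]
  by_cases hb : b = 0
  · simp [hb, radial_zero, norm_radial]
  have na : 0 < ‖a‖ := norm_pos_iff.2 ha
  have nb : 0 < ‖b‖ := norm_pos_iff.2 hb
  set u : sphere (0 : X) 1 := ⟨‖a‖⁻¹ • a, by simp [norm_smul, na.ne']⟩ with hu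
  set v : sphere (0 : X) 1 := ⟨‖b‖⁻¹ • b, by simp [norm_smul, nb.ne']⟩ with hv
  have e1 : a - b = ‖a‖ • ((u : X) - (‖b‖ / ‖a‖) • (v : X)) := by
    rw [smul_sub, smul_smul ‖a‖ (‖b‖ / ‖a‖), mul_div_cancel₀ _ na.ne', hu, hv]
    rw [smul_inv_smul₀ na.ne', smul_inv_smul₀ nb.ne']
  have e2 : radial f a - radial f b = ‖a‖ • ((f u : Y) - (‖b‖ / ‖a‖) • (f v : Y)) := by
    rw [smul_sub, smul_smul ‖a‖ (‖b‖ / ‖a‖), mul_div_cancel₀ _ na.ne']
    simp only [radial, dif_neg ha, dif_neg hb, ← hu, ← hv]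
  rw [e1, e2, norm_smul, norm_smul]
  have hd := h v u (‖b‖ / ‖a‖) (by positivity) ((div_le_one na).2 hle)
  simp only [dev] at hd
  congr 1
  linarith

/-- Tingley's problem when one of the spaces is uniformly convex. -/
theorem tingley_uniformConvex (h : UniformConvexSpace X ∨ UniformConvexSpace Y)
    (f : sphere (0 : X) 1 → sphere (0 : Y) 1) (hf : Isometry f) (hsurj : Function.Surjective f) :
    ∃ T : X ≃ₗᵢ[ℝ] Y, ∀ x : sphere (0 : X) 1, T (x : X) = (f x : Y) := by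
  have : UniformConvexSpace Y := by
    rcases h with h | h
    · let g : sphere (0 : Y) 1 → sphere (0 : X) 1 := Function.surjInv hsurj
      have hg : Isometry g := Isometry.of_dist_eq fun w w' => by
        rw [← hf.dist_eq (g w) (g w'), Function.surjInv_eq hsurj, Function.surjInv_eq hsurj]
      exact uniformConvexSpace_of_sphere_isometry g hg
    · exact h
  have hiso : Isometry (radial f) := Isometry.of_dist_eq fun a b => by
    rw [dist_eq_norm, dist_eq_norm]
    exact norm_radial_sub_of_dev f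
      (fun x y s h0 h1 => dev_eq_zero f hf hsurj x y (by linarith) h1) a b
  let E : X ≃ᵢ Y :=
    ⟨Equiv.ofBijective (radial f) ⟨hiso.injective, radial_surjective f hsurj⟩, hiso⟩
  refine ⟨E.toRealLinearIsometryEquivOfMapZero (radial_zero f), fun x => ?_⟩
  exact radial_sphere f x

end Vale.Agent.P084
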