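import Mathlib

/-!
A Lipschitz map of a Euclidean space that is the identity outside a ball is surjective
(a no-retraction argument through the change of variables formula).
-/

open MeasureTheory Metric Set
open scoped ENNReal NNReal

namespace Vale.Agent.P084

variable {n : ℕ}


theorem norm_smul_inv_sub_le {X : Type*} [NormedAddCommGroup X] [NormedSpace ℝ X]
    {a b : X} (ha : a ≠ 0) (hb : b ≠ 0) :
    ‖a‖ * ‖‖a‖⁻¹ • a - ‖b‖⁻¹ • b‖ ≤ 2 * ‖a - b‖ := by
  have h1 : ‖a‖ ≠ 0 := norm_ne_zero_iff.2 ha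
  have h2 : ‖b‖ ≠ 0 := norm_ne_zero_iff.2 hb
  have e : ‖a‖ • (‖a‖⁻¹ • a - ‖b‖⁻¹ • b) = (a - b) + (‖b‖ - ‖a‖) • (‖b‖⁻¹ • b) := by
    rw [smul_sub, smul_smul, smul_smul, smul_smul, mul_inv_cancel₀ h1, one_smul, sub_mul,
      mul_inv_cancel₀ h2, sub_smul, one_smul]
    abel
  have e' : ‖a‖ * ‖‖a‖⁻¹ • a - ‖b‖⁻¹ • b‖ = ‖‖a‖ • (‖a‖⁻¹ • a - ‖b‖⁻¹ • b)‖ := by
    rw [norm_smul, Real.norm_of_nonneg (norm_nonneg a)]
  rw [e', e]
  refine (norm_add_le _ _).trans ?_
  have h3 : ‖(‖b‖ - ‖a‖) • (‖b‖⁻¹ • b)‖ = |‖b‖ - ‖a‖| := by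
    rw [norm_smul, norm_smul, norm_inv, norm_norm, inv_mul_cancel₀ h2, mul_one,
      Real.norm_eq_abs]
  rw [h3]
  have := abs_norm_sub_norm_le b a
  rw [norm_sub_rev b a] at this
  linarith

/-- The radial projection onto the closed ball of radius `R`. -/
noncomputable def ballProj {X : Type*} [NormedAddCommGroup X] [NormedSpace ℝ X]
    (R : ℝ) (x : X) : X := (R / max R ‖x‖) • x

theorem ballProj_lipschitz {X : Type*} [NormedAddCommGroup X] [NormedSpace ℝ X]
    {R : ℝ} (hR : 0 < R) : LipschitzWith 2 (ballProj (X := X) R) := by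
  refine LipschitzWith.of_dist_le_mul fun x y => ?_
  rw [dist_eq_norm, dist_eq_norm]
  set a := max R ‖x‖ with hadef
  set b := max R ‖y‖ with hbdef
  have ha : 0 < a := lt_of_lt_of_le hR (le_max_left _ _)
  have hb : 0 < b := lt_of_lt_of_le hR (le_max_left _ _)
  have e : ballProj R x - ballProj R y = (R / a) • (x - y) + (R / a - R / b) • y := by
    simp only [ballProj, ← hadef, ← hbdef, smul_sub, sub_smul]
    abel
  rw [e]
  refine (norm_add_le _ _).trans ?_
  have h1 : ‖(R / a) • (x - y)‖ ≤ ‖x - y‖ := by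
    rw [norm_smul, Real.norm_of_nonneg (by positivity)]
    exact mul_le_of_le_one_left (norm_nonneg _) ((div_le_one ha).2 (le_max_left _ _))
  have h2 : ‖(R / a - R / b) • y‖ ≤ |b - a| := by
    rw [norm_smul, Real.norm_eq_abs]
    have : R / a - R / b = R / (a * b) * (b - a) := by
      field_simp
    rw [this, abs_mul, abs_of_pos (by positivity : 0 < R / (a * b))]
    have h3 : R / (a * b) * ‖y‖ ≤ 1 := by
      rw [div_mul_eq_mul_div, div_le_one (by positivity)]
      exact mul_le_mul (le_max_left _ _) (le_max_right _ _) (norm_nonneg _) ha.le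
    calc R / (a * b) * |b - a| * ‖y‖ = R / (a * b) * ‖y‖ * |b - a| := by ring
      _ ≤ 1 * |b - a| := mul_le_mul_of_nonneg_right h3 (abs_nonneg _)
      _ = |b - a| := one_mul _
  have h4 : |b - a| ≤ ‖x - y‖ := by
    calc |b - a| ≤ max |R - R| |‖y‖ - ‖x‖| := abs_max_sub_max_le_max _ _ _ _
      _ ≤ ‖x - y‖ := by
        rw [sub_self, abs_zero]
        refine max_le (norm_nonneg _) ?_
        rw [norm_sub_rev]
        exact abs_norm_sub_norm_le y x
  push_cast
  linarith

theorem ballProj_of_le {X : Type*} [NormedAddCommGroup X] [NormedSpace ℝ X]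
    {R : ℝ} (hR : 0 < R) {x : X} (h : ‖x‖ ≤ R) : ballProj R x = x := by
  simp [ballProj, max_eq_left h, div_self hR.ne']

theorem norm_ballProj_of_ge {X : Type*} [NormedAddCommGroup X] [NormedSpace ℝ X]
    {R : ℝ} (hR : 0 < R) {x : X} (h : R ≤ ‖x‖) : ‖ballProj R x‖ = R := by
  have hx : (0 : ℝ) < ‖x‖ := lt_of_lt_of_le hR h
  rw [ballProj, max_eq_right h, norm_smul, Real.norm_of_nonneg (by positivity),
    div_mul_cancel₀ _ hx.ne']

/-- Lipschitz maps send null sets to null sets. -/
theorem lipschitz_image_null {f : EuclideanSpace ℝ (Fin n) → EuclideanSpace ℝ (Fin n)}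
    {K : ℝ≥0} (hf : LipschitzWith K f) {N : Set (EuclideanSpace ℝ (Fin n))}
    (hN : volume N = 0) : volume (f '' N) = 0 := by
  set d : ℝ := (Module.finrank ℝ (EuclideanSpace ℝ (Fin n)) : ℝ) with hd
  have : Measure.IsAddHaarMeasure
      (μH[d] : Measure (EuclideanSpace ℝ (Fin n))) := isAddHaarMeasure_hausdorffMeasure
  have h1 : (μH[d] : Measure (EuclideanSpace ℝ (Fin n))) N = 0 := by
    rw [Measure.isAddLeftInvariant_eq_smul (μH[d] : Measure (EuclideanSpace ℝ (Fin n))) volume]
    simp [hN]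
  have h2 : (μH[d] : Measure (EuclideanSpace ℝ (Fin n))) (f '' N) = 0 := by
    have := hf.hausdorffMeasure_image_le (Nat.cast_nonneg (Module.finrank ℝ
      (EuclideanSpace ℝ (Fin n)))) N
    rw [← hd, h1, mul_zero] at this
    exact le_antisymm this bot_le
  rw [Measure.isAddLeftInvariant_eq_smul (volume : Measure (EuclideanSpace ℝ (Fin n))) μH[d]]
  simp [h2]

/-- The area inequality for a Lipschitz map on a measurable set. -/
theorem volume_le_lintegral_det {f : EuclideanSpace ℝ (Fin n) → EuclideanSpace ℝ (Fin n)}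
    {K : ℝ≥0} (hf : LipschitzWith K f) {U : Set (EuclideanSpace ℝ (Fin n))}
    (hU : MeasurableSet U) :
    volume (f '' U) ≤ ∫⁻ x in U, ENNReal.ofReal |(fderiv ℝ f x).det| := by
  set D := {x | DifferentiableAt ℝ f x} with hD
  have hDm : MeasurableSet D := measurableSet_of_differentiableAt ℝ f
  have hnull : volume (U \ D) = 0 :=
    measure_mono_null (fun x hx => hx.2) (ae_iff.1 hf.ae_differentiableAt)
  have hsub : f '' U ⊆ f '' (U ∩ D) ∪ f '' (U \ D) := by
    rw [← image_union, inter_union_sdiff]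
  calc volume (f '' U) ≤ volume (f '' (U ∩ D)) + volume (f '' (U \ D)) :=
        (measure_mono hsub).trans (measure_union_le _ _)
    _ = volume (f '' (U ∩ D)) := by rw [lipschitz_image_null hf hnull, add_zero]
    _ ≤ ∫⁻ x in U ∩ D, ENNReal.ofReal |(fderiv ℝ f x).det| :=
        addHaar_image_le_lintegral_abs_det_fderiv volume (hU.inter hDm)
          (fun x hx => hx.2.hasFDerivAt.hasFDerivWithinAt)
    _ ≤ _ := lintegral_mono_set inter_subset_left

theorem det_one_add_pos (A : EuclideanSpace ℝ (Fin n) →L[ℝ] EuclideanSpace ℝ (Fin n))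
    {t : ℝ} (ht : 0 ≤ t) (h : t * ‖A‖ < 1) : 0 < (1 + t • A).det := by
  have hne : ∀ s ∈ Icc 0 t, (1 + s • A).det ≠ 0 := by
    intro s hs hdet
    obtain ⟨v, hv, hv0⟩ := Submodule.exists_mem_ne_zero_of_ne_bot
      (LinearMap.bot_lt_ker_of_det_eq_zero hdet).ne'
    have hv' : v + s • A v = 0 := by simpa using hv
    have h1 : ‖v‖ = ‖s • A v‖ := by
      rw [← norm_neg (s • A v), ← eq_neg_of_add_eq_zero_left hv']
    have h2 : ‖s • A v‖ ≤ t * ‖A‖ * ‖v‖ := by
      rw [norm_smul, Real.norm_of_nonneg hs.1, mul_assoc]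
      exact mul_le_mul hs.2 (A.le_opNorm v) (norm_nonneg _) ht
    have h3 : 0 < ‖v‖ := norm_pos_iff.2 hv0
    nlinarith
  have hcont : ContinuousOn (fun s : ℝ => (1 + s • A).det) (Icc 0 t) :=
    (ContinuousLinearMap.continuous_det.comp (by fun_prop)).continuousOn
  by_contra hneg
  have h0 : (1 + (0 : ℝ) • A).det = 1 := by
    have : (0 : ℝ) • A = 0 := zero_smul ℝ A
    rw [this, add_zero]; exact LinearMap.det_id
  obtain ⟨s, hs, hs0⟩ := intermediate_value_Icc' ht hcont
    (show (0 : ℝ) ∈ Icc _ _ from ⟨not_lt.1 hneg, by rw [h0]; norm_num⟩)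
  exact hne s hs hs0

/-- Lagrange weights evaluate `det (1 + A)` from the values of `det (1 + t A)`. -/
theorem det_one_add_interpolate
    (A : EuclideanSpace ℝ (Fin n) →L[ℝ] EuclideanSpace ℝ (Fin n))
    {v : Fin (n + 1) → ℝ} (hv : Function.Injective v) :
    (1 + A).det = ∑ k, (1 + v k • A).det * (Lagrange.basis Finset.univ v k).eval 1 := by
  let b := (EuclideanSpace.basisFun (Fin n) ℝ).toBasis
  set M : Matrix (Fin n) (Fin n) ℝ := LinearMap.toMatrix b b A.toLinearMap with hM
  set P : Polynomial ℝ :=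
    ((Polynomial.X : Polynomial ℝ) • M.map Polynomial.C +
      (1 : Matrix (Fin n) (Fin n) ℝ).map Polynomial.C).det with hP
  have heval : ∀ t : ℝ, P.eval t = (1 + t • A).det := by
    intro t
    have e1 : P.eval t = (1 + t • M).det := by
      rw [hP, ← Polynomial.coe_evalRingHom, RingHom.map_det (Polynomial.evalRingHom t)]
      congr 1
      ext i j
      simp only [RingHom.mapMatrix_apply, Matrix.map_apply, Matrix.add_apply, Matrix.smul_apply,
        smul_eq_mul, Polynomial.coe_evalRingHom, Polynomial.eval_add, Polynomial.eval_mul,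
        Polynomial.eval_X, Polynomial.eval_C]
      ring
    rw [e1, ContinuousLinearMap.det, ← LinearMap.det_toMatrix b]
    congr 1
    simp [hM, LinearMap.toMatrix_one]
  have hdeg : P.degree < (Finset.univ : Finset (Fin (n + 1))).card := by
    refine lt_of_le_of_lt Polynomial.degree_le_natDegree ?_
    rw [Finset.card_univ, Fintype.card_fin]
    have := Polynomial.natDegree_det_X_add_C_le M (1 : Matrix (Fin n) (Fin n) ℝ)
    rw [Fintype.card_fin] at this
    exact_mod_cast Nat.lt_succ_of_le this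
  have hint := Lagrange.eq_interpolate hv.injOn hdeg
  have h1 : P.eval 1 = (1 + A).det := by rw [heval, one_smul]
  rw [← h1]
  conv_lhs => rw [hint]
  simp [Lagrange.interpolate_apply, Polynomial.eval_finsetSum, heval]

/-- A Lipschitz map which is the identity outside a bounded set is surjective. -/
theorem surjective_of_eq_id_outside
    {G : EuclideanSpace ℝ (Fin n) → EuclideanSpace ℝ (Fin n)} {K : ℝ≥0}
    (hG : LipschitzWith K G) {R : ℝ} (hid : ∀ x, R ≤ ‖x‖ → G x = x) :
    Function.Surjective G := by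
  classical
  by_contra hns
  obtain ⟨y0, hy0⟩ : ∃ y0, ∀ x, G x ≠ y0 := by
    simpa [Function.Surjective] using hns
  set G0 : EuclideanSpace ℝ (Fin n) → EuclideanSpace ℝ (Fin n) := fun x => G (x + y0) - y0
    with hG0def
  have hG0 : LipschitzWith K G0 := by
    refine LipschitzWith.of_dist_le_mul fun x y => ?_
    simp only [hG0def, dist_sub_right]
    refine (hG.dist_le_mul _ _).trans ?_
    simp [dist_add_right]
  have hG0ne : ∀ x, G0 x ≠ 0 := fun x => sub_ne_zero.2 (hy0 _)
  set R1 : ℝ := |R| + ‖y0‖ + 1 with hR1def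
  have hR1 : 0 < R1 := by positivity
  have hid0 : ∀ x, R1 ≤ ‖x‖ → G0 x = x := by
    intro x hx
    have h' : R ≤ ‖x + y0‖ := by
      have := norm_sub_le (x + y0) y0
      rw [add_sub_cancel_right] at this
      have := le_abs_self R
      linarith
    simp [hG0def, hid _ h']
  obtain ⟨δ, hδpos, hδ⟩ : ∃ δ > 0, ∀ x, δ ≤ ‖G0 x‖ := by
    obtain ⟨x0, -, hx0⟩ := (isCompact_closedBall (0 : EuclideanSpace ℝ (Fin n)) R1).exists_isMinOn
      ⟨0, by simp [hR1.le]⟩ (hG0.continuous.norm.continuousOn)
    refine ⟨min ‖G0 x0‖ R1, lt_min (norm_pos_iff.2 (hG0ne x0)) hR1, fun x => ?_⟩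
    by_cases hx : ‖x‖ ≤ R1
    · exact (min_le_left _ _).trans (hx0 (by simpa using hx))
    · rw [hid0 x (le_of_not_ge hx)]
      exact (min_le_right _ _).trans (le_of_not_ge hx)
  set r : EuclideanSpace ℝ (Fin n) → EuclideanSpace ℝ (Fin n) :=
    fun x => R1 • (‖G0 x‖⁻¹ • G0 x) with hrdef
  set Kr : ℝ≥0 := ⟨R1 * (2 * K / δ), by positivity⟩ with hKr
  have hrlip : LipschitzWith Kr r := by
    refine LipschitzWith.of_dist_le_mul fun x y => ?_
    rw [dist_eq_norm, dist_eq_norm]
    simp only [hrdef, ← smul_sub, norm_smul, Real.norm_of_nonneg hR1.le]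
    show _ ≤ R1 * (2 * K / δ) * ‖x - y‖
    rw [mul_assoc]
    refine mul_le_mul_of_nonneg_left ?_ hR1.le
    have h1 := norm_smul_inv_sub_le (hG0ne x) (hG0ne y)
    have h2 : ‖G0 x - G0 y‖ ≤ K * ‖x - y‖ := by
      simpa [dist_eq_norm] using hG0.dist_le_mul x y
    rw [div_mul_eq_mul_div, le_div_iff₀ hδpos]
    calc ‖‖G0 x‖⁻¹ • G0 x - ‖G0 y‖⁻¹ • G0 y‖ * δ
        ≤ ‖‖G0 x‖⁻¹ • G0 x - ‖G0 y‖⁻¹ • G0 y‖ * ‖G0 x‖ :=
          mul_le_mul_of_nonneg_left (hδ x) (norm_nonneg _)
      _ ≤ 2 * ‖G0 x - G0 y‖ := by rw [mul_comm]; exact h1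
      _ ≤ 2 * K * ‖x - y‖ := by nlinarith
  have hrnorm : ∀ x, ‖r x‖ = R1 := by
    intro x
    simp [hrdef, norm_smul, norm_ne_zero_iff.2 (hG0ne x), abs_of_pos hR1]
  have hrsphere : ∀ x, ‖x‖ = R1 → r x = x := by
    intro x hx
    simp only [hrdef, hid0 x hx.ge, hx, smul_smul, mul_inv_cancel₀ hR1.ne', one_smul]
  set H : EuclideanSpace ℝ (Fin n) → EuclideanSpace ℝ (Fin n) :=
    fun x => r (ballProj R1 x) - ballProj R1 x with hHdef
  have hH : LipschitzWith (Kr * 2 + 2) H :=
    (hrlip.comp (ballProj_lipschitz hR1)).sub (ballProj_lipschitz hR1)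
  set L : ℝ≥0 := Kr * 2 + 2 with hL
  have hHout : ∀ x, R1 ≤ ‖x‖ → H x = 0 := by
    intro x hx
    simp [hHdef, hrsphere _ (norm_ballProj_of_ge hR1 hx)]
  set B : Set (EuclideanSpace ℝ (Fin n)) := ball 0 R1 with hBdef
  set D := {x | DifferentiableAt ℝ H x} with hDdef
  have hDm : MeasurableSet D := measurableSet_of_differentiableAt ℝ H
  have hnull : volume (B \ D) = 0 :=
    measure_mono_null (fun x hx => hx.2) (ae_iff.1 hH.ae_differentiableAt)
  have hsmall : ∀ t : ℝ, 0 ≤ t → t * L < 1 →
      ∫ x in B, (1 + t • fderiv ℝ H x).det = volume.real B := by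
    intro t ht htL
    set g : EuclideanSpace ℝ (Fin n) → EuclideanSpace ℝ (Fin n) := fun x => x + t • H x
      with hgdef
    have htlip : ∀ x y, ‖t • H x - t • H y‖ ≤ t * L * ‖x - y‖ := by
      intro x y
      rw [← smul_sub, norm_smul, Real.norm_of_nonneg ht, mul_assoc]
      exact mul_le_mul_of_nonneg_left (by simpa [dist_eq_norm] using hH.dist_le_mul x y) ht
    have hinj : Function.Injective g := by
      intro x y hxy
      have h1 : x - y = t • H y - t • H x := by
        simp only [hgdef] at hxy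
        rw [sub_eq_sub_iff_add_eq_add, hxy, add_comm]
      have h2 := htlip y x
      rw [← h1, norm_sub_rev y x] at h2
      have h3 : 0 ≤ ‖x - y‖ := norm_nonneg _
      have : ‖x - y‖ = 0 := by nlinarith
      exact sub_eq_zero.1 (norm_eq_zero.1 this)
    have hsurj : Function.Surjective g := by
      intro y
      have hc : ContractingWith ⟨t * L, by positivity⟩ (fun x => y - t • H x) := by
        refine ⟨(by exact_mod_cast htL), LipschitzWith.of_dist_le_mul fun a b => ?_⟩
        rw [dist_eq_norm, dist_eq_norm, sub_sub_sub_cancel_left, norm_sub_rev a b]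
        exact htlip b a
      refine ⟨ContractingWith.fixedPoint _ hc, ?_⟩
      have := hc.fixedPoint_isFixedPt
      exact (eq_sub_iff_add_eq.1 this.eq.symm)
    have hgout : ∀ x, x ∉ B → g x = x := by
      intro x hx
      simp [hgdef, hHout x (by simpa [hBdef] using hx)]
    have hgB : g '' B = B := by
      apply Subset.antisymm
      · rintro _ ⟨x, hx, rfl⟩
        by_contra hc
        exact hc ((hinj (hgout _ hc)).symm ▸ hx)
      · intro y hy
        obtain ⟨x, rfl⟩ := hsurj y
        refine ⟨x, ?_, rfl⟩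
        by_contra hc
        exact hc (hgout x hc ▸ hy)
    have hglip : LipschitzWith (1 + ‖t‖₊ * L) g :=
      LipschitzWith.id.add ((lipschitzWith_smul t).comp hH)
    have himg : volume (g '' (B ∩ D)) = volume B := by
      refine le_antisymm ?_ ?_
      · exact (measure_mono (image_mono inter_subset_left)).trans_eq (by rw [hgB])
      · calc volume B = volume (g '' B) := by rw [hgB]
          _ ≤ volume (g '' (B ∩ D) ∪ g '' (B \ D)) := by
              rw [← image_union, inter_union_sdiff]
          _ ≤ volume (g '' (B ∩ D)) + volume (g '' (B \ D)) := measure_union_le _ _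
          _ = volume (g '' (B ∩ D)) := by rw [lipschitz_image_null hglip hnull, add_zero]
    have hder : ∀ x ∈ B ∩ D,
        HasFDerivWithinAt g (1 + t • fderiv ℝ H x) (B ∩ D) x := by
      intro x hx
      exact ((hasFDerivAt_id x).add (hx.2.hasFDerivAt.const_smul t)).hasFDerivWithinAt
    have hm : MeasurableSet (B ∩ D) := measurableSet_ball.inter hDm
    have hcv := lintegral_abs_det_fderiv_eq_addHaar_image (μ := volume)
      hm hder hinj.injOn
    rw [himg] at hcv
    have hpos : ∀ x, 0 ≤ (1 + t • fderiv ℝ H x).det := by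
      intro x
      refine (det_one_add_pos _ ht (lt_of_le_of_lt ?_ htL)).le
      exact mul_le_mul_of_nonneg_left (norm_fderiv_le_of_lipschitz ℝ hH) ht
    have hae : (B ∩ D : Set _) =ᵐ[volume] B := by
      refine (ae_eq_set).2 ⟨?_, ?_⟩
      · simp [Set.sdiff_eq_empty.2 (inter_subset_left (s := B) (t := D))]
      · simpa using hnull
    rw [setLIntegral_congr hae] at hcv
    rw [integral_eq_lintegral_of_nonneg_ae (Filter.Eventually.of_forall hpos)
      (((ContinuousLinearMap.continuous_det.comp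
        (continuous_const.add (continuous_id.const_smul t))).measurable.comp
          (measurable_fderiv ℝ H)).aestronglyMeasurable)]
    rw [Measure.real, ← hcv]
    congr 2 with x
    rw [abs_of_nonneg (hpos x)]
  have hzero : ∀ᵐ x ∂(volume.restrict B), (1 + fderiv ℝ H x).det = 0 := by
    rw [ae_restrict_iff' measurableSet_ball]
    filter_upwards [hH.ae_differentiableAt] with x hxD hxB
    have heq : (fun y => y + H y) =ᶠ[nhds x] r := by
      filter_upwards [isOpen_ball.mem_nhds hxB] with y hy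
      have hy' : ‖y‖ ≤ R1 := (mem_ball_zero_iff.1 hy).le
      simp [hHdef, ballProj_of_le hR1 hy']
    have hd : HasFDerivAt r (1 + fderiv ℝ H x) x :=
      ((hasFDerivAt_id x).add hxD.hasFDerivAt).congr_of_eventuallyEq heq.symm
    have hsq : HasFDerivAt (fun y => ‖r y‖ ^ 2)
        (2 • (innerSL ℝ (r x)).comp (1 + fderiv ℝ H x)) x := hd.norm_sq
    have hconst : HasFDerivAt (fun y => ‖r y‖ ^ 2)
        (0 : EuclideanSpace ℝ (Fin n) →L[ℝ] ℝ) x := by
      simp only [hrnorm]
      exact hasFDerivAt_const _ _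
    have horth := hsq.unique hconst
    by_contra hne
    have hbij := LinearMap.equivOfDetNeZero (1 + fderiv ℝ H x).toLinearMap hne
    obtain ⟨w, hw⟩ := (LinearMap.equivOfDetNeZero (1 + fderiv ℝ H x).toLinearMap hne).surjective
      (r x)
    have := congrArg (fun T : EuclideanSpace ℝ (Fin n) →L[ℝ] ℝ => T w) horth
    have hw' : (1 + fderiv ℝ H x) w = r x := hw
    simp only [smul_apply, ContinuousLinearMap.comp_apply, hw',
      innerSL_apply_apply, real_inner_self_eq_norm_sq, zero_apply,
      hrnorm, nsmul_eq_mul] at this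
    push_cast at this
    nlinarith [pow_pos hR1 2]
  have hBpos : 0 < volume.real B :=
    ENNReal.toReal_pos (measure_ball_pos volume _ hR1).ne' measure_ball_lt_top.ne
  set v : Fin (n + 1) → ℝ := fun k => (k : ℝ) / ((n + 1 : ℝ) * (L + 1)) with hvdef
  have hvinj : Function.Injective v := by
    intro a b hab
    simp only [hvdef] at hab
    rw [div_left_inj' (by positivity)] at hab
    exact Fin.ext (by exact_mod_cast hab)
  have hv0 : ∀ k, 0 ≤ v k := fun k => by positivity
  have hvL : ∀ k, v k * L < 1 := by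
    intro k
    have hk : (k : ℝ) ≤ n := by exact_mod_cast Nat.lt_succ_iff.1 k.isLt
    simp only [hvdef]
    rw [div_mul_eq_mul_div, div_lt_one (by positivity)]
    have hL0 : (0 : ℝ) ≤ L := L.coe_nonneg
    nlinarith [mul_le_mul_of_nonneg_right hk hL0]
  have hint : ∀ k, Integrable (fun x => (1 + v k • fderiv ℝ H x).det) (volume.restrict B) := by
    intro k
    by_contra hni
    have := hsmall _ (hv0 k) (hvL k)
    rw [integral_undef hni] at this
    linarith
  have hfinal : ∫ x in B, (1 + fderiv ℝ H x).det = volume.real B := by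
    calc ∫ x in B, (1 + fderiv ℝ H x).det
        = ∫ x in B, ∑ k, (1 + v k • fderiv ℝ H x).det *
            (Lagrange.basis Finset.univ v k).eval 1 := by
          refine integral_congr_ae (Filter.Eventually.of_forall fun x => ?_)
          exact det_one_add_interpolate _ hvinj
      _ = ∑ k, (∫ x in B, (1 + v k • fderiv ℝ H x).det) *
            (Lagrange.basis Finset.univ v k).eval 1 := by
          rw [integral_finsetSum _ fun k _ => (hint k).mul_const _]
          simp only [integral_mul_const]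
      _ = volume.real B * ∑ k, (Lagrange.basis Finset.univ v k).eval 1 := by
          simp only [hsmall _ (hv0 _) (hvL _), Finset.mul_sum]
      _ = volume.real B := by
          rw [← Polynomial.eval_finsetSum, Lagrange.sum_basis hvinj.injOn Finset.univ_nonempty,
            Polynomial.eval_one, mul_one]
  rw [integral_eq_zero_of_ae hzero] at hfinal
  linarith

end Vale.Agent.P084
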