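import Mathlib

/-!
The scalar heart of the maximum principle for Tingley's problem.

`Ay, Az` are the distance profiles `σ ↦ ‖y - σ x‖`, `σ ↦ ‖z - σ x‖` in the source, `By, Bz` the
corresponding profiles in the target.  The deviation is at most `D` on `[-1, 1]`, vanishes at
`0, 1, -1`, equals `D` at `t` for `y`, and `y, t x, z` are collinear on both sides.
-/

namespace Vale.Agent.P084

/-- The standing hypotheses of the maximum principle. -/
structure Profile (Ay Az By Bz : ℝ → ℝ) (t r r' D : ℝ) : Prop where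
  ht0 : 0 < t
  ht1 : t < 1
  hD : 0 < D
  hr : 1 - t ≤ r
  hr' : 1 - t ≤ r'
  hrt : r ≤ 1 + t
  hr't : r' ≤ 1 + t
  ha : 1 - t ≤ r - D
  lAy : ∀ s u, Ay s ≤ Ay u + |s - u|
  lAz : ∀ s u, Az s ≤ Az u + |s - u|
  lBy : ∀ s u, By s ≤ By u + |s - u|
  lBz : ∀ s u, Bz s ≤ Bz u + |s - u|
  hy1 : Ay 1 = By 1
  hz1 : Az 1 = Bz 1
  hAy0 : Ay 0 = 1
  hBy0 : By 0 = 1
  hAz0 : Az 0 = 1
  hBz0 : Bz 0 = 1
  hym : Ay (-1) = By (-1)
  hzm : Az (-1) = Bz (-1)
  hyD : ∀ s, -1 ≤ s → s ≤ 1 → |Ay s - By s| ≤ D
  hzD : ∀ s, -1 ≤ s → s ≤ 1 → |Az s - Bz s| ≤ D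
  hA : ∀ τ, r * Az (t - τ * r') = r' * Ay (t + τ * r)
  hB : ∀ τ, (r - D) * Bz (t - τ * (r' + D)) = (r' + D) * By (t + τ * (r - D))
  hconv : (r' + D) * (r + r') ≤ r * Bz (t - (1 - t) * r' / r) + r' * Bz 1

variable {Ay Az By Bz : ℝ → ℝ} {t r r' D : ℝ}

lemma Profile.bound_y (P : Profile Ay Az By Bz t r r' D) :
    (Ay 1 - (1 - t)) * (r + r') ≤ (r - D) * r := by
  obtain ⟨ht0, ht1, hD, hr, hr', hrt, hr't, ha, lAy, lAz, lBy, lBz, hy1, hz1, hAy0, hBy0, hAz0,
    hBz0, hym, hzm, hyD, hzD, hA, hB, hconv⟩ := P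
  set k : ℝ := 1 - t with hk
  set a : ℝ := r - D with had
  set b : ℝ := r' + D with hbd
  set L : ℝ := r + r' with hL
  have hk0 : 0 < k := by linarith
  have hr0 : 0 < r := by linarith
  have hr'0 : 0 < r' := by linarith
  have ha0 : 0 < a := by linarith
  have hb0 : 0 < b := by linarith
  have hL0 : 0 < L := by linarith
  have hdet : r * b - a * r' = D * L := by rw [had, hbd, hL]; ring
  have habL : a + b = L := by rw [had, hbd, hL]; ring
  have hbr : a * r' ≤ b * r := by nlinarith [mul_pos hD hL0]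
  have e1 : a * Bz (t - k / a * b) = b * By 1 := by
    rw [hB (k / a), div_mul_cancel₀ k ha0.ne', hk, add_sub_cancel]
  rw [← hy1] at e1
  have e1' := congrArg (fun w => r * w) e1
  rcases le_or_gt (-1) (t - k / a * b) with hc | hc
  · have e2 := hA (k * b / (a * r'))
    have ei : k * b / (a * r') * r' = k / a * b := by field_simp
    rw [ei] at e2
    have g1 := (abs_le.1 (hzD _ hc (by nlinarith [div_pos hk0 ha0, mul_pos (div_pos hk0 ha0) hb0]))).1
    set σ := t + k * b / (a * r') * r with hσ
    have eσ : a * r' * (σ - 1) = k * (D * L) := by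
      rw [hσ, ← hdet]; field_simp; rw [hk]; ring
    have hσ1 : 1 ≤ σ := by
      have : 0 ≤ a * r' * (σ - 1) := by rw [eσ]; positivity
      nlinarith [(mul_pos ha0 hr'0)]
    have g2 := lAy σ 1
    rw [abs_of_nonneg (by linarith)] at g2
    have g3 := mul_le_mul_of_nonneg_left g2 (mul_pos ha0 hr'0).le
    have g4 := mul_le_mul_of_nonneg_left g1 (mul_pos ha0 hr0).le
    have : (Ay 1 - k) * L * D ≤ a * r * D := by
      linear_combination g3 + g4 - e1' + a * e2 + eσ - (Ay 1) * hdet
    exact le_of_mul_le_mul_right this hD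
  · have g1 := lBz (t - k / a * b) (-1)
    rw [abs_of_nonpos (by linarith), ← hzm] at g1
    have e2 := hA ((1 + t) / r')
    rw [div_mul_cancel₀ _ hr'0.ne', show t - (1 + t) = -1 by ring] at e2
    set σ := t + (1 + t) / r' * r with hσ
    have eσ : r' * (σ - 1) = (1 + t) * r - k * r' := by rw [hσ, hk]; field_simp; ring
    have hσ1 : 1 ≤ σ := by
      have h : k * r' ≤ r * (1 + t) := mul_le_mul hr hr't hr'0.le hr0.le
      have : 0 ≤ r' * (σ - 1) := by linarith
      linarith [(mul_nonneg_iff_of_pos_left hr'0).1 this]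
    have g2 := lAy σ 1
    rw [abs_of_nonneg (by linarith)] at g2
    have g3 := mul_le_mul_of_nonneg_left g2 (mul_pos ha0 hr'0).le
    have g4 := mul_le_mul_of_nonneg_left g1 (mul_pos ha0 hr0).le
    have ek : a * (k / a * b) = k * b := by field_simp
    have : (Ay 1 - k) * L * D ≤ 0 * D := by
      linear_combination g3 + g4 - e1' + a * e2 + a * eσ + r * ek + (k - Ay 1) * hdet
    have := le_of_mul_le_mul_right this hD
    linarith [mul_pos ha0 hr0]

lemma Profile.bound_z (P : Profile Ay Az By Bz t r r' D) :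
    (Az 1 - (1 - t)) * (r + r') ≤ (r' + D) * r' := by
  obtain ⟨ht0, ht1, hD, hr, hr', hrt, hr't, ha, lAy, lAz, lBy, lBz, hy1, hz1, hAy0, hBy0, hAz0,
    hBz0, hym, hzm, hyD, hzD, hA, hB, hconv⟩ := P
  set k : ℝ := 1 - t with hk
  set a : ℝ := r - D with had
  set b : ℝ := r' + D with hbd
  set L : ℝ := r + r' with hL
  have hk0 : 0 < k := by linarith
  have hr0 : 0 < r := by linarith
  have hr'0 : 0 < r' := by linarith
  have ha0 : 0 < a := by linarith
  have hb0 : 0 < b := by linarith
  have hL0 : 0 < L := by linarith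
  have hdet : r * b - a * r' = D * L := by rw [had, hbd, hL]; ring
  have habL : a + b = L := by rw [had, hbd, hL]; ring
  have hbr : a * r' ≤ b * r := by nlinarith [mul_pos hD hL0]
  have e1 : r * Az 1 = r' * Ay (t - k / r' * r) := by
    have := hA (-(k / r'))
    rw [neg_mul, div_mul_cancel₀ k hr'0.ne', sub_neg_eq_add, hk, add_sub_cancel] at this
    rw [this, neg_mul, hk, ← sub_eq_add_neg]
  rcases le_or_gt (-1) (t - k / r' * r) with hc | hc
  · have e2 := hB (-(k * r / (r' * a)))
    have ei : t + -(k * r / (r' * a)) * a = t - k / r' * r := by field_simp; ring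
    rw [ei] at e2
    have g1 := (abs_le.1 (hyD _ hc (by nlinarith [mul_pos (div_pos hk0 hr'0) hr0]))).2
    set σ := t - -(k * r / (r' * a)) * b with hσ
    have eσ : a * r' * (σ - 1) = k * (D * L) := by
      rw [hσ, ← hdet]; field_simp; rw [hk]; ring
    have hσ1 : 1 ≤ σ := by
      have : 0 ≤ a * r' * (σ - 1) := by rw [eσ]; positivity
      nlinarith [(mul_pos ha0 hr'0)]
    have g2 := lBz σ 1
    rw [abs_of_nonneg (by linarith), ← hz1] at g2
    have g3 := mul_le_mul_of_nonneg_left g2 (mul_pos ha0 hr'0).le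
    have g4 := mul_le_mul_of_nonneg_left g1 (mul_pos hb0 hr'0).le
    have : (Az 1 - k) * L * D ≤ b * r' * D := by
      linear_combination g3 + g4 + b * e1 - r' * e2 + eσ - (Az 1) * hdet
    exact le_of_mul_le_mul_right this hD
  · have g1 := lAy (t - k / r' * r) (-1)
    rw [abs_of_nonpos (by linarith), hym] at g1
    have e2 := hB (-((1 + t) / a))
    rw [show t + -((1 + t) / a) * a = -1 by field_simp; ring] at e2
    set σ := t - -((1 + t) / a) * b with hσ
    have eσ : a * (σ - 1) = (1 + t) * b - k * a := by rw [hσ, hk]; field_simp; ring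
    have hσ1 : 1 ≤ σ := by
      have h : k * a ≤ b * (1 + t) :=
        mul_le_mul (by linarith) (by linarith) ha0.le hb0.le
      have : 0 ≤ a * (σ - 1) := by linarith
      linarith [(mul_nonneg_iff_of_pos_left ha0).1 this]
    have g2 := lBz σ 1
    rw [abs_of_nonneg (by linarith), ← hz1] at g2
    have g3 := mul_le_mul_of_nonneg_left g2 (mul_pos ha0 hr'0).le
    have g4 := mul_le_mul_of_nonneg_left g1 (mul_pos hb0 hr'0).le
    have ek : r' * (k / r' * r) = k * r := by field_simp
    have : (Az 1 - k) * L * D ≤ 0 * D := by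
      linear_combination g3 + g4 + b * e1 - r' * e2 + r' * eσ + b * ek + (k - Az 1) * hdet
    have := le_of_mul_le_mul_right this hD
    linarith [mul_pos hb0 hr'0]

lemma Profile.margin (P : Profile Ay Az By Bz t r r' D) :
    r + r' + D ≤ Ay 1 + Az 1 := by
  obtain ⟨ht0, ht1, hD, hr, hr', hrt, hr't, ha, lAy, lAz, lBy, lBz, hy1, hz1, hAy0, hBy0, hAz0,
    hBz0, hym, hzm, hyD, hzD, hA, hB, hconv⟩ := P
  set k : ℝ := 1 - t with hk
  set a : ℝ := r - D with had
  set b : ℝ := r' + D with hbd
  set L : ℝ := r + r' with hL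
  have hk0 : 0 < k := by linarith
  have hr0 : 0 < r := by linarith
  have hr'0 : 0 < r' := by linarith
  have ha0 : 0 < a := by linarith
  have hb0 : 0 < b := by linarith
  have hL0 : 0 < L := by linarith
  have hdet : r * b - a * r' = D * L := by rw [had, hbd, hL]; ring
  have habL : a + b = L := by rw [had, hbd, hL]; ring
  have hbr : a * r' ≤ b * r := by nlinarith [mul_pos hD hL0]
  have e1 := hA (k / r)
  rw [div_mul_cancel₀ k hr0.ne', hk, add_sub_cancel, ← hk] at e1
  have ei : k / r * r' = k * r' / r := by ring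
  rw [ei] at e1
  have hlow : -1 ≤ t - k * r' / r := by
    rw [le_sub_iff_add_le, ← le_sub_iff_add_le', div_le_iff₀ hr0]
    nlinarith
  have g1 := (abs_le.1 (hzD _ hlow (by
    have : 0 ≤ k * r' / r := by positivity
    linarith))).1
  have g2 := mul_le_mul_of_nonneg_left g1 hr0.le
  refine le_of_mul_le_mul_left (a := r') ?_ hr'0
  linear_combination hconv + g2 + e1 - r' * hz1

lemma Profile.node_z (P : Profile Ay Az By Bz t r r' D) :
    (1 - t) * (r + r') ≤ (r - D) * r' ∨ (1 - t) * (r + r') ≤ (r - D) * r := by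
  obtain ⟨ht0, ht1, hD, hr, hr', hrt, hr't, ha, lAy, lAz, lBy, lBz, hy1, hz1, hAy0, hBy0, hAz0,
    hBz0, hym, hzm, hyD, hzD, hA, hB, hconv⟩ := P
  set k : ℝ := 1 - t with hk
  set a : ℝ := r - D with had
  set b : ℝ := r' + D with hbd
  set L : ℝ := r + r' with hL
  have hk0 : 0 < k := by linarith
  have hr0 : 0 < r := by linarith
  have hr'0 : 0 < r' := by linarith
  have ha0 : 0 < a := by linarith
  have hb0 : 0 < b := by linarith
  have hL0 : 0 < L := by linarith
  have hdet : r * b - a * r' = D * L := by rw [had, hbd, hL]; ring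
  have habL : a + b = L := by rw [had, hbd, hL]; ring
  have hbr : a * r' ≤ b * r := by nlinarith [mul_pos hD hL0]
  have h4 : (Az 1 - k) * L ≤ b * r' :=
    Profile.bound_z ⟨ht0, ht1, hD, hr, hr', hrt, hr't, ha, lAy, lAz, lBy, lBz, hy1, hz1, hAy0,
      hBy0, hAz0, hBz0, hym, hzm, hyD, hzD, hA, hB, hconv⟩
  have e1 := hA (-(t / r))
  rw [show t + -(t / r) * r = 0 by field_simp; ring, hAy0] at e1
  have e2 := hB (-(t / a))
  rw [show t + -(t / a) * a = 0 by field_simp; ring, hBy0] at e2
  set σA := t - -(t / r) * r' with hσA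
  set σB := t - -(t / a) * b with hσB
  have eA : r * σA = t * L := by rw [hσA, hL]; field_simp; ring
  have eB : a * σB = t * L := by rw [hσB, ← habL]; field_simp; ring
  have hAB : σA ≤ σB := by
    have h1 : a * r * (σB - σA) = t * L * D := by
      linear_combination r * eB - a * eA - t * L * had
    have : 0 ≤ a * r * (σB - σA) := by rw [h1]; positivity
    linarith [(mul_nonneg_iff_of_pos_left (mul_pos ha0 hr0)).1 this]
  rcases lt_or_ge r (t * L) with hc | hc
  · left
    have hA1 : 1 < σA := lt_of_mul_lt_mul_left (by linarith : r * 1 < r * σA) hr0.le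
    have g := lBz σB 1
    rw [abs_of_nonneg (by linarith), ← hz1] at g
    have g' := mul_le_mul_of_nonneg_left g ha0.le
    have hb1 : k * b ≤ a * (Az 1 - k) := by
      rw [hk]
      linear_combination g' + eB - e2 + habL
    have g5 := mul_le_mul_of_nonneg_left h4 ha0.le
    have g6 := mul_le_mul_of_nonneg_right hb1 hL0.le
    refine le_of_mul_le_mul_left (a := b) ?_ hb0
    linear_combination g5 + g6
  · right
    have hA1 : σA ≤ 1 := le_of_mul_le_mul_left (by linarith : r * σA ≤ r * 1) hr0
    rcases le_or_gt σB 1 with hB1 | hB1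
    · have g1 := (abs_le.1 (hzD σB (by
        have : 0 ≤ a * σB := by rw [eB]; positivity
        linarith [(mul_nonneg_iff_of_pos_left ha0).1 this]) hB1)).1
      have g2 := lAz σB σA
      rw [abs_of_nonneg (by linarith)] at g2
      have g3 := mul_le_mul_of_nonneg_left g1 (mul_pos ha0 hr0).le
      have g4 := mul_le_mul_of_nonneg_left g2 (mul_pos ha0 hr0).le
      have : k * L * D ≤ a * r * D := by
        rw [hk]
        linear_combination g3 + g4 + a * e1 - r * e2 + r * eB - a * eA - hdet - t * L * had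
      exact le_of_mul_le_mul_right this hD
    · exfalso
      have g1 := lBz σB 1
      rw [abs_of_nonneg (by linarith), ← hz1] at g1
      have g2 := lAz 1 σA
      rw [abs_of_nonneg (by linarith)] at g2
      have g3 := mul_le_mul_of_nonneg_left g1 (mul_pos ha0 hr0).le
      have g4 := mul_le_mul_of_nonneg_left g2 (mul_pos ha0 hr0).le
      have : k * L * D ≤ 0 := by
        rw [hk]
        linear_combination g3 + g4 + a * e1 - r * e2 + r * eB - a * eA - hdet - t * L * had
      linarith [mul_pos (mul_pos hk0 hL0) hD]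

lemma Profile.node_y (P : Profile Ay Az By Bz t r r' D) :
    (1 - t) * (r + r') ≤ (r - D) * r' ∨ (1 - t) * (r + r') ≤ (r' + D) * r' := by
  obtain ⟨ht0, ht1, hD, hr, hr', hrt, hr't, ha, lAy, lAz, lBy, lBz, hy1, hz1, hAy0, hBy0, hAz0,
    hBz0, hym, hzm, hyD, hzD, hA, hB, hconv⟩ := P
  set k : ℝ := 1 - t with hk
  set a : ℝ := r - D with had
  set b : ℝ := r' + D with hbd
  set L : ℝ := r + r' with hL
  have hk0 : 0 < k := by linarith
  have hr0 : 0 < r := by linarith
  have hr'0 : 0 < r' := by linarith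
  have ha0 : 0 < a := by linarith
  have hb0 : 0 < b := by linarith
  have hL0 : 0 < L := by linarith
  have hdet : r * b - a * r' = D * L := by rw [had, hbd, hL]; ring
  have habL : a + b = L := by rw [had, hbd, hL]; ring
  have hbr : a * r' ≤ b * r := by nlinarith [mul_pos hD hL0]
  have h3 : (Ay 1 - k) * L ≤ a * r :=
    Profile.bound_y ⟨ht0, ht1, hD, hr, hr', hrt, hr't, ha, lAy, lAz, lBy, lBz, hy1, hz1, hAy0,
      hBy0, hAz0, hBz0, hym, hzm, hyD, hzD, hA, hB, hconv⟩
  have e1 := hA (t / r')
  rw [div_mul_cancel₀ t hr'0.ne', sub_self, hAz0] at e1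
  have e2 := hB (t / b)
  rw [div_mul_cancel₀ t hb0.ne', sub_self, hBz0] at e2
  set σA := t + t / r' * r with hσA
  set σB := t + t / b * a with hσB
  have eA : r' * σA = t * L := by rw [hσA, hL]; field_simp; ring
  have eB : b * σB = t * L := by rw [hσB, ← habL]; field_simp; ring
  rcases lt_or_ge r' (t * L) with hc | hc
  · left
    have hA1 : 1 < σA := lt_of_mul_lt_mul_left (by linarith : r' * 1 < r' * σA) hr'0.le
    have g := lAy σA 1
    rw [abs_of_nonneg (by linarith)] at g
    have g' := mul_le_mul_of_nonneg_left g hr'0.le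
    have hb1 : k * r ≤ r' * (Ay 1 - k) := by
      rw [hk]
      linear_combination g' + eA + e1
    have g5 := mul_le_mul_of_nonneg_left h3 hr'0.le
    have g6 := mul_le_mul_of_nonneg_right hb1 hL0.le
    refine le_of_mul_le_mul_left (a := r) ?_ hr0
    linear_combination g5 + g6
  · right
    have hA1 : σA ≤ 1 := le_of_mul_le_mul_left (by linarith : r' * σA ≤ r' * 1) hr'0
    have hAB : σB ≤ σA := by
      have h1 : b * (r' * (σA - σB)) = t * L * D := by
        linear_combination b * eA - r' * eB + t * L * hbd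
      have : 0 ≤ b * r' * (σA - σB) := by rw [mul_assoc, h1]; positivity
      linarith [(mul_nonneg_iff_of_pos_left (mul_pos hb0 hr'0)).1 this]
    have g1 := (abs_le.1 (hyD σB (by
      have : 0 ≤ b * σB := by rw [eB]; positivity
      linarith [(mul_nonneg_iff_of_pos_left hb0).1 this]) (by linarith))).2
    have g2 := lAy σA σB
    rw [abs_of_nonneg (by linarith)] at g2
    have g3 := mul_le_mul_of_nonneg_left g1 (mul_pos hb0 hr'0).le
    have g4 := mul_le_mul_of_nonneg_left g2 (mul_pos hb0 hr'0).le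
    have : k * L * D ≤ b * r' * D := by
      rw [hk]
      linear_combination g3 + g4 + b * e1 - r' * e2 + b * eA - r' * eB - hdet + t * L * hbd
    exact le_of_mul_le_mul_right this hD

/-- No configuration with positive deviation `D` exists. -/
theorem Profile.false (P : Profile Ay Az By Bz t r r' D) : False := by
  have h3 := P.bound_y
  have h4 := P.bound_z
  have hmargin := P.margin
  have hA1 := P.node_z
  have hA2 := P.node_y
  have hD := P.hD
  have hr0 : 0 < r := by linarith [P.hr, P.ht1]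
  have hr'0 : 0 < r' := by linarith [P.hr', P.ht1]
  have hub : r * (r' + D) ≤ (1 - t) * (r + r') := by
    nlinarith [mul_le_mul_of_nonneg_left hmargin (show 0 ≤ r + r' by linarith)]
  have hDL := mul_pos hD (show 0 < r + r' by linarith)
  rcases hA1 with h | h
  · nlinarith
  rcases hA2 with h' | h'
  · nlinarith
  rcases lt_or_ge (r - D) (r' + D) with hab | hab
  · nlinarith
  · nlinarith

end Vale.Agent.P084
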